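import Vale.Agent.P284.H378.CS
import Vale.Agent.P284.H494.Loc
import Vale.Agent.P284.H10.S4e

/-!
# P284 (helper212), module C: sets with thin complement are dense and connected
-/

open scoped Manifold Topology ContDiff
open Filter Set Metric

noncomputable section

namespace Vale.Agent.P284.H212

open Vale.Agent.P272.K Vale.Agent.P284.H894.W Vale.Agent.P284.H894.G Vale.Agent.P284.H10
  Vale.Agent.P284.H494 Vale.Agent.P284.H378

variable {n : ℕ} {X : Type} [TopologicalSpace X] [ChartedSpace (Cm n) X] {E : Type}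
  [TopologicalSpace E] {p : E → X} {𝒢 : Set E}

/-- local structure -/
theorem thin_loc (hp : IsCoveringMap p) (h : Thin n p 𝒢) (y : E) {O : Set E} (hO : O ∈ 𝓝 y) :
    ∃ (e : Chart n X) (ε : OpenPartialHomeomorph E (Cm n)) (j : Cm n → ℂ), IsCh p e ε ∧
      y ∈ ε.source ∧ ε.source ⊆ O ∧ Convex ℝ ε.target ∧ AnalyticOnNhd ℂ j ε.target ∧
      (∀ z ∈ ε.target, ∃ᶠ z' in 𝓝 z, j z' ≠ 0) ∧ ∀ z ∈ ε.target, j z ≠ 0 → ε.symm z ∈ 𝒢 := by
  obtain ⟨e, ε₀, hε₀, hy₀, -, -⟩ := exists_ch (n := n) hp y hO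
  obtain ⟨j, hj1, hj2, hj3⟩ := h.thin y e (hε₀.at hy₀)
  have hj1' : ∀ᶠ y' in 𝓝 y, AnalyticAt ℂ j (e (p y')) := by
    have h1 := hj1.eventually_analyticAt
    rw [← map_nhds hp (hε₀.at hy₀)] at h1
    exact h1
  obtain ⟨ε, hε, hy, hsub, hc⟩ := exists_ch_at hp (hε₀.at hy₀) (O := O ∩ {y' |
    AnalyticAt ℂ j (e (p y')) ∧ (j (e (p y')) ≠ 0 → y' ∈ 𝒢)})
    (inter_mem hO (hj1'.and hj3))
  have ha : AnalyticOnNhd ℂ j ε.target := by
    intro z hz
    have h1 := (hsub (ε.map_target hz)).2.1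
    rwa [← hε.eq _ (ε.map_target hz), ε.right_inv hz] at h1
  refine ⟨e, ε, j, hε, hy, hsub.trans inter_subset_left, hc, ha, fun z hz => ?_, fun z hz hz0 => ?_⟩
  · intro h0
    have h1 : ∀ᶠ z' in 𝓝 z, j z' = 0 := h0.mono fun z' h2 => by simpa using h2
    have h2 := ha.eqOn_zero_of_preconnected_of_eventuallyEq_zero hc.isPreconnected hz h1
    apply hj2
    rw [← hε.eq y hy]
    filter_upwards [ε.open_target.mem_nhds (ε.map_source hy)] with z' hz'
    exact fun h3 => h3 (h2 hz')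
  · refine (hsub (ε.map_target hz)).2.2 ?_
    rwa [← hε.eq _ (ε.map_target hz), ε.right_inv hz]

theorem thin_dense (hp : IsCoveringMap p) (h : Thin n p 𝒢) : Dense 𝒢 := by
  intro y
  rw [mem_closure_iff_nhds]
  intro O hO
  obtain ⟨e, ε, j, hε, hy, hsub, hc, ha, hf, hg⟩ := thin_loc hp h y hO
  obtain ⟨z, hz0, hz⟩ := ((hf _ (ε.map_source hy)).and_eventually
    (ε.open_target.mem_nhds (ε.map_source hy))).exists
  exact ⟨ε.symm z, hsub (ε.map_target hz), hg z hz hz0⟩

theorem thin_preconn [ConnectedSpace E] (hp : IsCoveringMap p) (h : Thin n p 𝒢) :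
    IsPreconnected 𝒢 := by
  have key : IsPreconnected (𝒢ᶜ)ᶜ := by
    refine preconn_compl (by rw [compl_compl]; exact thin_dense hp h) fun y => ?_
    obtain ⟨e, ε, j, hε, hy, -, hc, ha, hf, hg⟩ := thin_loc hp h y univ_mem
    refine ⟨ε.source, ε.open_source, hy, ?_⟩
    have hpre : IsPreconnected (ε.target \ {z | j z = 0}) := by
      rcases Nat.eq_zero_or_pos n with h0 | h0
      · subst h0
        exact Set.Subsingleton.isPreconnected fun a _ b _ => Subsingleton.elim a b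
      · obtain ⟨k, rfl⟩ : ∃ k, n = k + 1 := ⟨n - 1, by omega⟩
        have h1 : Cov k {z ∈ ε.target | j z = 0} :=
          cov_zero (by simp) ε.open_target
            (fun z hz => (ha z hz).differentiableAt.differentiableWithinAt)
            fun z hz h3 => hf z hz (h3.mono fun z' h4 h5 => h5 h4)
        refine preconn_diff (k := k) (h1.mono ?_) (by simp) ε.open_target hc
        rintro z ⟨h2, h3⟩
        exact ⟨h3, h2⟩
    have himg : IsPreconnected (ε.symm '' (ε.target \ {z | j z = 0})) :=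
      hpre.image _ (ε.continuousOn_symm.mono sdiff_subset)
    refine himg.subset_closure ?_ ?_
    · rintro _ ⟨z, ⟨hz, hz0⟩, rfl⟩
      exact ⟨ε.map_target hz, fun h2 => h2 (hg z hz hz0)⟩
    · rintro y' ⟨hy', -⟩
      rw [mem_closure_iff_frequently]
      have h1 : ∃ᶠ z in 𝓝 (ε y'), z ∈ ε.target \ {z | j z = 0} :=
        ((hf _ (ε.map_source hy')).and_eventually
          (ε.open_target.mem_nhds (ε.map_source hy'))).mono fun z hz => ⟨hz.2, hz.1⟩
      have h2 : Tendsto ε.symm (𝓝 (ε y')) (𝓝 y') := IsCh.symm_tendsto hy'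
      exact h2.frequently (h1.mono fun z hz => mem_image_of_mem _ hz)
  rwa [compl_compl] at key

end Vale.Agent.P284.H212
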