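import Vale.Agent.P284.H998.ZS
import Vale.Agent.P272.K.AMP.Prod.Chart
import Vale.Agent.P299.H223.ProjOf

/-!
# P284 (helper212), module Z, part (Z2): homogeneous coordinates

`PJ n X ι` from the projective data, from its tensor powers, and for products (Segre).
-/

open scoped Manifold ContDiff Topology ComplexOrder
open Filter

noncomputable section

namespace Vale.Agent.P284.H212

open Vale.Agent.P272.K Vale.Agent.P299.H908 Vale.Agent.P284.H998

/-- tendsto of the inverse chart -/
lemma tendsto_symm {n : ℕ} {X : Type*} [TopologicalSpace X] [ChartedSpace (Cm n) X]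
    {e : Chart n X} {x : X} (h : At e x) : Tendsto e.symm (𝓝 (e x)) (𝓝 x) := by
  have := (e.continuousAt_symm h.mem_target).tendsto
  rwa [h.left_inv] at this

section projData

variable {n : ℕ} {X : Type} [TopologicalSpace X] [ChartedSpace (Cm n) X]

lemma projData_opn (D : ProjData n X) (i : Fin (D.N + 1)) : IsOpen {x | D.Z x i ≠ 0} := by
  rw [isOpen_iff_mem_nhds]
  intro x hx
  obtain ⟨W, s, hW, hs, hsZ⟩ := D.loc x
  have hxW : x ∈ W := mem_of_mem_nhds hW
  obtain ⟨c, hc, hcx⟩ := hsZ x hxW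
  have h1 : s x i ≠ 0 := by
    rw [hcx]
    simp only [Pi.smul_apply, smul_eq_mul]
    exact mul_ne_zero hc hx
  have h2 := (hs x hxW i).continuousAt.eventually_ne h1
  filter_upwards [h2, hW] with y hy hyW
  obtain ⟨c, hc, hcy⟩ := hsZ y hyW
  rw [hcy] at hy
  simp only [Pi.smul_apply, smul_eq_mul] at hy
  exact right_ne_zero_of_mul hy

/-- homogeneous coordinates from projective data -/
def pjOf (D : ProjData n X) : PJ n X (Fin (D.N + 1)) where
  Z := D.Z
  ne := D.ne
  opn := projData_opn D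
  hol _ i hi j := D.holAt_ratio j i hi
  imm e x h i hi v hv := D.imm e x h i hi v hv

theorem nonempty_pj [Nonempty X] [IsManifold 𝓘(ℂ, Cm n) ω X]
    (hX : Vale.Agent.P300.Final.IsSmoothProjective (Cm n) X) :
    ∃ N : ℕ, Nonempty (PJ n X (Fin (N + 1))) := by
  obtain ⟨D⟩ := Vale.Agent.P299.H223.nonempty_projData hX
  exact ⟨D.N, ⟨pjOf D⟩⟩

theorem pjStmt : PJStmt := by
  intro n X _ _ _ hX
  rcases isEmpty_or_nonempty X with h | h
  · exact ⟨Unit, inferInstance, ⟨{
      Z := fun _ _ => 1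
      ne := fun x => (h.false x).elim
      opn := fun i => by
        have : {x : X | (fun _ _ => (1 : ℂ) : X → Unit → ℂ) x i ≠ 0} = ∅ := by
          ext x; exact (h.false x).elim
        rw [this]; exact isOpen_empty
      hol := fun x => (h.false x).elim
      imm := fun e x => (h.false x).elim }⟩⟩
  · obtain ⟨N, hN⟩ := nonempty_pj hX
    exact ⟨_, inferInstance, hN⟩

end projData

section pow

variable {n : ℕ} {X : Type} [TopologicalSpace X] [ChartedSpace (Cm n) X]
  {ι : Type} [Fintype ι]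

lemma pj_exists (D : PJ n X ι) (x : X) : ∃ i, D.Z x i ≠ 0 := by
  by_contra h
  push Not at h
  exact D.ne x (funext h)

/-- tensor power of homogeneous coordinates -/
def pjPow (D : PJ n X ι) (d : ℕ) (hd : 0 < d) : PJ n X (Fin d → ι) where
  Z x I := ∏ k, D.Z x (I k)
  ne x h := by
    obtain ⟨i, hi⟩ := pj_exists D x
    have := congrFun h (fun _ => i)
    simp only [Finset.prod_const, Pi.zero_apply] at this
    exact pow_ne_zero _ hi this
  opn I := by
    have : {x | ∏ k, D.Z x (I k) ≠ 0} = ⋂ k, {x | D.Z x (I k) ≠ 0} := by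
      ext x
      simp [Finset.prod_ne_zero_iff]
    rw [this]
    exact isOpen_iInter_of_finite fun k => D.opn (I k)
  hol x I hI J := by
    have h1 : ∀ k, D.Z x (I k) ≠ 0 := fun k => (Finset.prod_ne_zero_iff.1 hI) k (Finset.mem_univ k)
    have h2 : HolAt n (fun y => ∏ k, (D.Z y (J k) / D.Z y (I k))) x :=
      HolAt.prod fun k _ => D.hol x (I k) (h1 k) (J k)
    refine h2.congr (Eventually.of_forall fun y => ?_)
    simp only [Finset.prod_div_distrib]
  imm e x h I hI v hv := by
    have h1 : ∀ k, D.Z x (I k) ≠ 0 := fun k => (Finset.prod_ne_zero_iff.1 hI) k (Finset.mem_univ k)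
    refine D.imm e x h (I ⟨0, hd⟩) (h1 _) v fun j => ?_
    have h3 := hv (Function.update I ⟨0, hd⟩ j)
    have h4 : (fun z => (∏ k, D.Z (e.symm z) (Function.update I ⟨0, hd⟩ j k)) /
        ∏ k, D.Z (e.symm z) (I k)) =ᶠ[𝓝 (e x)]
        fun z => D.Z (e.symm z) j / D.Z (e.symm z) (I ⟨0, hd⟩) := by
      have h5 : ∀ᶠ y in 𝓝 x, ∀ k, D.Z y (I k) ≠ 0 :=
        eventually_all.2 fun k => (D.opn (I k)).mem_nhds (h1 k)
      filter_upwards [(tendsto_symm h).eventually h5] with z hz
      rw [← Finset.prod_div_distrib, ← Finset.mul_prod_erase _ _ (Finset.mem_univ (⟨0, hd⟩ : Fin d))]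
      rw [Function.update_self, Finset.prod_eq_one, mul_one]
      intro k hk
      rw [Function.update_of_ne (Finset.ne_of_mem_erase hk), div_self (hz k)]
    rw [h4.fderiv_eq] at h3
    exact h3

end pow

section prod

open Vale.Agent.P272.K.Prod

attribute [local instance] prodCS

variable {n m : ℕ} {X Y : Type} [TopologicalSpace X] [TopologicalSpace Y]
  [ChartedSpace (Cm n) X] [ChartedSpace (Cm m) Y]

lemma analyticAt_fstP (z : Cm (n + m)) : AnalyticAt ℂ (fstP : Cm (n + m) → Cm n) z := by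
  have : ContDiffAt ℂ ω (fstP : Cm (n + m) → Cm n) z := contDiff_fstP.contDiffAt
  exact this.analyticAt

lemma analyticAt_sndP (z : Cm (n + m)) : AnalyticAt ℂ (sndP : Cm (n + m) → Cm m) z := by
  have : ContDiffAt ℂ ω (sndP : Cm (n + m) → Cm m) z := contDiff_sndP.contDiffAt
  exact this.analyticAt

lemma holAt_fst {F : Type*} [NormedAddCommGroup F] [NormedSpace ℂ F] {g : X → F} {p : X × Y}
    (hg : HolAt n g p.1) : HolAt (n + m) (fun q : X × Y => g q.1) p := by
  intro E hE
  obtain ⟨e, e', rfl, he, he'⟩ := at_dec hE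
  have h1 := hg e he
  show AnalyticAt ℂ (fun z => g (e.symm (fstP z))) (pc e e' p)
  refine AnalyticAt.comp (g := fun z => g (e.symm z)) (f := (fstP : Cm (n + m) → Cm n)) ?_
    (analyticAt_fstP _)
  simpa using h1

lemma holAt_snd {F : Type*} [NormedAddCommGroup F] [NormedSpace ℂ F] {g : Y → F} {p : X × Y}
    (hg : HolAt m g p.2) : HolAt (n + m) (fun q : X × Y => g q.2) p := by
  intro E hE
  obtain ⟨e, e', rfl, he, he'⟩ := at_dec hE
  have h1 := hg e' he'
  show AnalyticAt ℂ (fun z => g (e'.symm (sndP z))) (pc e e' p)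
  refine AnalyticAt.comp (g := fun z => g (e'.symm z)) (f := (sndP : Cm (n + m) → Cm m)) ?_
    (analyticAt_sndP _)
  simpa using h1

variable {ι κ : Type} [Fintype ι] [Fintype κ]

/-- the complex derivative of the first projection -/
def fstL (n m : ℕ) : Cm (n + m) →L[ℂ] Cm n :=
  ContinuousLinearMap.pi fun i => ContinuousLinearMap.proj (Fin.castAdd m i)

/-- the complex derivative of the second projection -/
def sndL (n m : ℕ) : Cm (n + m) →L[ℂ] Cm m :=
  ContinuousLinearMap.pi fun i => ContinuousLinearMap.proj (Fin.natAdd n i)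

lemma hasFDerivAt_fstP (z : Cm (n + m)) :
    HasFDerivAt (fstP : Cm (n + m) → Cm n) (fstL n m) z := (fstL n m).hasFDerivAt

lemma hasFDerivAt_sndP (z : Cm (n + m)) :
    HasFDerivAt (sndP : Cm (n + m) → Cm m) (sndL n m) z := (sndL n m).hasFDerivAt

/-- **Segre**: homogeneous coordinates on a product -/
def pjProd (D : PJ n X ι) (D' : PJ m Y κ) : PJ (n + m) (X × Y) (ι × κ) where
  Z p i := D.Z p.1 i.1 * D'.Z p.2 i.2
  ne p h := by
    obtain ⟨i, hi⟩ := pj_exists D p.1
    obtain ⟨j, hj⟩ := pj_exists D' p.2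
    exact mul_ne_zero hi hj (congrFun h (i, j))
  opn i := by
    have : {p : X × Y | D.Z p.1 i.1 * D'.Z p.2 i.2 ≠ 0} =
        {x | D.Z x i.1 ≠ 0} ×ˢ {y | D'.Z y i.2 ≠ 0} := by
      ext p
      simp
    rw [this]
    exact (D.opn i.1).prod (D'.opn i.2)
  hol p i hi j := by
    have h1 : D.Z p.1 i.1 ≠ 0 := left_ne_zero_of_mul hi
    have h2 : D'.Z p.2 i.2 ≠ 0 := right_ne_zero_of_mul hi
    have h3 : HolAt (n + m) (fun q : X × Y => D.Z q.1 j.1 / D.Z q.1 i.1) p :=
      holAt_fst (D.hol p.1 i.1 h1 j.1)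
    have h4 : HolAt (n + m) (fun q : X × Y => D'.Z q.2 j.2 / D'.Z q.2 i.2) p :=
      holAt_snd (D'.hol p.2 i.2 h2 j.2)
    refine (h3.mul h4).congr (Eventually.of_forall fun q => ?_)
    simp only []
    rw [mul_div_mul_comm]
  imm E p hE i hi v hv := by
    obtain ⟨e, e', rfl, he, he'⟩ := at_dec hE
    have h1 : D.Z p.1 i.1 ≠ 0 := left_ne_zero_of_mul hi
    have h2 : D'.Z p.2 i.2 ≠ 0 := right_ne_zero_of_mul hi
    have hz1 : fstP (pc e e' p) = e p.1 := by simp
    have hz2 : sndP (pc e e' p) = e' p.2 := by simp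
    have k1 : fstL n m v = 0 := by
      refine D.imm e p.1 he i.1 h1 _ fun j => ?_
      have h3 := hv (j, i.2)
      have h4 : (fun z => D.Z ((pc e e').symm z).1 (j, i.2).1 * D'.Z ((pc e e').symm z).2 (j, i.2).2 /
          (D.Z ((pc e e').symm z).1 i.1 * D'.Z ((pc e e').symm z).2 i.2)) =ᶠ[𝓝 (pc e e' p)]
          fun z => (fun y => D.Z (e.symm y) j / D.Z (e.symm y) i.1) (fstP z) := by
        have h5 : ∀ᶠ q in 𝓝 p, D'.Z q.2 i.2 ≠ 0 :=
          (continuous_snd.tendsto p).eventually ((D'.opn i.2).mem_nhds h2)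
        filter_upwards [(tendsto_symm hE).eventually h5] with z hz
        simp only [pc_symm_apply] at hz ⊢
        rw [mul_div_mul_right _ _ hz]
      rw [h4.fderiv_eq] at h3
      have h6 : DifferentiableAt ℂ (fun y => D.Z (e.symm y) j / D.Z (e.symm y) i.1)
          (fstP (pc e e' p)) := by
        rw [hz1]
        exact (D.hol p.1 i.1 h1 j e he).differentiableAt
      have h7 := (h6.hasFDerivAt.comp _ (hasFDerivAt_fstP (pc e e' p))).fderiv
      rw [show (fun z => (fun y => D.Z (e.symm y) j / D.Z (e.symm y) i.1) (fstP z)) =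
        (fun y => D.Z (e.symm y) j / D.Z (e.symm y) i.1) ∘ fstP from rfl, h7, hz1] at h3
      exact h3
    have k2 : sndL n m v = 0 := by
      refine D'.imm e' p.2 he' i.2 h2 _ fun j => ?_
      have h3 := hv (i.1, j)
      have h4 : (fun z => D.Z ((pc e e').symm z).1 (i.1, j).1 * D'.Z ((pc e e').symm z).2 (i.1, j).2 /
          (D.Z ((pc e e').symm z).1 i.1 * D'.Z ((pc e e').symm z).2 i.2)) =ᶠ[𝓝 (pc e e' p)]
          fun z => (fun y => D'.Z (e'.symm y) j / D'.Z (e'.symm y) i.2) (sndP z) := by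
        have h5 : ∀ᶠ q in 𝓝 p, D.Z q.1 i.1 ≠ 0 :=
          (continuous_fst.tendsto p).eventually ((D.opn i.1).mem_nhds h1)
        filter_upwards [(tendsto_symm hE).eventually h5] with z hz
        simp only [pc_symm_apply] at hz ⊢
        rw [mul_div_mul_left _ _ hz]
      rw [h4.fderiv_eq] at h3
      have h6 : DifferentiableAt ℂ (fun y => D'.Z (e'.symm y) j / D'.Z (e'.symm y) i.2)
          (sndP (pc e e' p)) := by
        rw [hz2]
        exact (D'.hol p.2 i.2 h2 j e' he').differentiableAt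
      have h7 := (h6.hasFDerivAt.comp _ (hasFDerivAt_sndP (pc e e' p))).fderiv
      rw [show (fun z => (fun y => D'.Z (e'.symm y) j / D'.Z (e'.symm y) i.2) (sndP z)) =
        (fun y => D'.Z (e'.symm y) j / D'.Z (e'.symm y) i.2) ∘ sndP from rfl, h7, hz2] at h3
      exact h3
    funext k
    refine Fin.addCases (fun i => ?_) (fun i => ?_) k
    · exact congrFun k1 i
    · exact congrFun k2 i

end prod

end Vale.Agent.P284.H212
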