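import Vale.Agent.P284.H998.Z3c
import Vale.Agent.P284.H212.PJ
import Vale.Agent.P299.H223.FS
import Vale.Agent.P272.K.AMP.Main.Step0

/-!
# P284 (helper212), module Z, part (Z4b): the Fubini–Study metric of homogeneous coordinates, and
positivity of `K_X + d [ω_FS]` for `d` large
-/

open scoped Manifold ContDiff Topology ComplexOrder LinearAlgebra.Projectivization
open Filter

noncomputable section

namespace Vale.Agent.P284.H212

open Vale.Agent.P272.K Vale.Agent.P299.H908 Vale.Agent.P299.H223 Vale.Agent.P284.H998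

section
variable {n : ℕ} {X : Type} [TopologicalSpace X] [ChartedSpace (Cm n) X]
  {ι : Type} [Fintype ι] (D : PJ n X ι)

/-- the affine coordinates with respect to the `i`-th homogeneous coordinate -/
def pjS (i : ι) (y : X) (k : Fin (Fintype.card ι)) : ℂ :=
  D.Z y ((Fintype.equivFin ι).symm k) / D.Z y i

/-- the map to the projective space -/
def pjPhi (x : X) : ℙ ℂ (Fin (Fintype.card ι) → ℂ) :=
  Projectivization.mk ℂ (fun k => D.Z x ((Fintype.equivFin ι).symm k)) (by
    intro h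
    apply D.ne x
    funext i
    have := congrFun h (Fintype.equivFin ι i)
    simpa using this)

lemma pjS_isLift [IsManifold 𝓘(ℂ, Cm n) ω X] (i : ι) :
    IsLift n (pjPhi D) {y | D.Z y i ≠ 0} (pjS D i) where
  isOpen := D.opn i
  holo x hx e h := by
    rw [contDiffAt_pi]
    intro k
    exact (D.hol x i hx _ e h).contDiffAt
  ne x hx h := by
    have := congrFun h (Fintype.equivFin ι i)
    simp only [pjS, Equiv.symm_apply_apply, Pi.zero_apply] at this
    rw [div_self hx] at this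
    exact one_ne_zero this
  eq x hx := by
    unfold pjPhi
    rw [Projectivization.mk_eq_mk_iff]
    have hx' : D.Z x i ≠ 0 := hx
    refine ⟨Units.mk0 _ hx', ?_⟩
    funext k
    show D.Z x i * (D.Z x ((Fintype.equivFin ι).symm k) / D.Z x i) = _
    rw [mul_div_cancel₀ _ hx']
  imm x hx e h v c hv := by
    have hx' : D.Z x i ≠ 0 := hx
    have hd : DifferentiableAt ℂ (fun z => pjS D i (e.symm z)) (e x) := by
      refine differentiableAt_pi.2 fun k => ?_
      exact (D.hol x i hx _ e h).differentiableAt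
    have hk : ∀ k, fderiv ℂ (fun z => pjS D i (e.symm z) k) (e x) v = c * pjS D i x k := by
      intro k
      have h1 := congrFun hv k
      have h2 := fderiv_pi (𝕜 := ℂ) (φ := fun k z => pjS D i (e.symm z) k) (x := e x)
        (fun k => (D.hol x i hx _ e h).differentiableAt)
      have h3 : fderiv ℂ (fun z => pjS D i (e.symm z)) (e x) =
          ContinuousLinearMap.pi fun k => fderiv ℂ (fun z => pjS D i (e.symm z) k) (e x) := h2
      rw [h3] at h1
      exact h1
    -- the `i`-th coordinate is constant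
    have hc : c = 0 := by
      have h1 := hk (Fintype.equivFin ι i)
      have h2 : (fun z => pjS D i (e.symm z) (Fintype.equivFin ι i)) =ᶠ[𝓝 (e x)]
          fun _ => (1 : ℂ) := by
        filter_upwards [(tendsto_symm h).eventually ((D.opn i).mem_nhds hx)] with z hz
        simp only [pjS, Equiv.symm_apply_apply]
        exact div_self hz
      rw [h2.fderiv_eq] at h1
      simp only [pjS, Equiv.symm_apply_apply, div_self hx'] at h1
      simpa using h1.symm
    refine D.imm e x h i hx v fun j => ?_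
    have h1 := hk (Fintype.equivFin ι j)
    simp only [pjS, Equiv.symm_apply_apply, hc, zero_mul] at h1
    exact h1

/-- the lifts -/
def pjLifts [IsManifold 𝓘(ℂ, Cm n) ω X] : Lifts n (pjPhi D) where
  W x := {y | D.Z y (Classical.choose (pj_exists D x)) ≠ 0}
  s x := pjS D (Classical.choose (pj_exists D x))
  mem x := Classical.choose_spec (pj_exists D x)
  lift _ := pjS_isLift D _

/-- the Fubini–Study metric of homogeneous coordinates -/
def pjFS [IsManifold 𝓘(ℂ, Cm n) ω X] : Chart n X → Cm n → Matrix (Fin n) (Fin n) ℂ :=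
  (pjLifts D).fs

theorem pjFS_isKahler [IsManifold 𝓘(ℂ, Cm n) ω X] : IsKahler (pjFS D) := (pjLifts D).isKahler

lemma nsq_pjS (i : ι) (y : X) : nsq (pjS D i y) = ∑ j, ‖D.Z y j / D.Z y i‖ ^ 2 := by
  unfold nsq pjS
  exact (Fintype.equivFin ι).symm.sum_comp fun j => ‖D.Z y j / D.Z y i‖ ^ 2

/-- the Fubini–Study metric is `i∂∂̄ log Σ |u j|²` -/
lemma pjFS_eq [IsManifold 𝓘(ℂ, Cm n) ω X] {e : Chart n X} {x : X} (h : At e x) {i : ι}
    (hi : D.Z x i ≠ 0) :
    pjFS D e (e x) = cHess (fun z => Real.log (∑ j, ‖D.u e i j z‖ ^ 2)) (e x) := by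
  unfold pjFS
  rw [Lifts.fs_eq _ (pjS_isLift D i) h hi]
  unfold fsM
  congr 1
  funext z
  rw [nsq_pjS]
  rfl

lemma contDiffAt_logu [IsManifold 𝓘(ℂ, Cm n) ω X] {e : Chart n X} {x : X} (h : At e x) {i : ι}
    (hi : D.Z x i ≠ 0) :
    ContDiffAt ℝ ∞ (fun z => Real.log (∑ j, ‖D.u e i j z‖ ^ 2)) (e x) := by
  have h1 := smooth_log_nsq ((pjS_isLift D i).holo x hi e h)
    (by simpa only [h.left_inv] using (pjS_isLift D i).ne x hi)
  refine h1.congr_of_eventuallyEq (Eventually.of_forall fun z => ?_)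
  show Real.log (∑ j, ‖D.u e i j z‖ ^ 2) = Real.log (nsq (pjS D i (e.symm z)))
  rw [nsq_pjS]
  rfl

lemma sumu_pos [IsManifold 𝓘(ℂ, Cm n) ω X] {e : Chart n X} {z : Cm n} {i : ι}
    (hi : D.Z (e.symm z) i ≠ 0) : 0 < ∑ j, ‖D.u e i j z‖ ^ 2 := by
  refine Finset.sum_pos' (fun j _ => by positivity) ⟨i, Finset.mem_univ i, ?_⟩
  show 0 < ‖D.Z (e.symm z) i / D.Z (e.symm z) i‖ ^ 2
  rw [div_self hi]
  simp

/-- the Fubini–Study form of the tensor power -/
lemma cHess_pow [IsManifold 𝓘(ℂ, Cm n) ω X] (d : ℕ) (hd : 0 < d) {e : Chart n X} {x : X}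
    (h : At e x) {I : Fin d → ι} (hI : (pjPow D d hd).Z x I ≠ 0) :
    cHess (fun z => Real.log (∑ J, ‖(pjPow D d hd).u e I J z‖ ^ 2)) (e x) =
      (d : ℂ) • pjFS D e (e x) := by
  have hI' : ∏ k, D.Z x (I k) ≠ 0 := hI
  have h1 : ∀ k, D.Z x (I k) ≠ 0 := fun k =>
    (Finset.prod_ne_zero_iff.1 hI') k (Finset.mem_univ k)
  have h2 : (fun z => Real.log (∑ J, ‖(pjPow D d hd).u e I J z‖ ^ 2)) =ᶠ[𝓝 (e x)]
      fun z => ∑ k : Fin d, Real.log (∑ j, ‖D.u e (I k) j z‖ ^ 2) := by
    have h5 : ∀ᶠ y in 𝓝 x, ∀ k, D.Z y (I k) ≠ 0 :=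
      eventually_all.2 fun k => (D.opn (I k)).mem_nhds (h1 k)
    filter_upwards [(tendsto_symm h).eventually h5] with z hz
    rw [← Real.log_prod fun k _ => (sumu_pos D (hz k)).ne']
    congr 1
    rw [Finset.prod_univ_sum, Fintype.piFinset_univ]
    refine Finset.sum_congr rfl fun J _ => ?_
    have h6 : (pjPow D d hd).u e I J z = ∏ k, D.u e (I k) (J k) z := by
      show (∏ k, D.Z (e.symm z) (J k)) / (∏ k, D.Z (e.symm z) (I k)) =
        ∏ k, (D.Z (e.symm z) (J k) / D.Z (e.symm z) (I k))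
      rw [Finset.prod_div_distrib]
    rw [h6, norm_prod, Finset.prod_pow]
  rw [C2.cHess_congr h2]
  have h3 : ∀ s : Finset (Fin d), cHess (fun z => ∑ k ∈ s, Real.log (∑ j, ‖D.u e (I k) j z‖ ^ 2))
      (e x) = ∑ k ∈ s, pjFS D e (e x) ∧
      ContDiffAt ℝ ∞ (fun z => ∑ k ∈ s, Real.log (∑ j, ‖D.u e (I k) j z‖ ^ 2)) (e x) := by
    intro s
    induction s using Finset.induction_on with
    | empty =>
      simp only [Finset.sum_empty]
      exact ⟨C2.cHess_const _, contDiffAt_const⟩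
    | insert a s ha ih =>
      simp only [Finset.sum_insert ha]
      have h4 := contDiffAt_logu D h (h1 a)
      refine ⟨?_, h4.add ih.2⟩
      rw [C2.cHess_add (h4.of_le INT.two_le_inf) (ih.2.of_le INT.two_le_inf), ih.1,
        pjFS_eq D h (h1 a)]
  rw [(h3 Finset.univ).1, Finset.sum_const, Finset.card_univ, Fintype.card_fin]
  ext i j
  simp

/-- **(Z4b)**: `K_X + d [ω_FS] > 0` for `d` large. -/
theorem exists_pos [IsManifold 𝓘(ℂ, Cm n) ω X] [CompactSpace X] :
    ∃ (d : ℕ) (hd : 0 < d) (w : Chart n X → Cm n → ℝ), IsCanonicalMetric w ∧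
      ∀ e x, At e x → ∀ I : Fin d → ι, (pjPow D d hd).Z x I ≠ 0 →
        (cHess (w e) (e x) +
          cHess (fun z => Real.log (∑ J, ‖(pjPow D d hd).u e I J z‖ ^ 2)) (e x)).PosDef := by
  obtain ⟨t, ht⟩ := AMP.Main.exists_pos (pjFS_isKahler D)
  obtain ⟨d, hd⟩ := exists_nat_ge (max t 1)
  have hd0 : 0 < d := by
    have : (1 : ℝ) ≤ d := (le_max_right _ _).trans hd
    exact_mod_cast this
  obtain ⟨φ, hφ, hpos⟩ := ht.mono (pjFS_isKahler D).toIsHermitian ((le_max_left _ _).trans hd)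
  refine ⟨d, hd0, φ, hφ, fun e x h I hI => ?_⟩
  rw [cHess_pow D d hd0 h hI]
  have := hpos e x h
  simpa using this

end

end Vale.Agent.P284.H212
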