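import Vale.Agent.P284.H573.HForm
import Mathlib.Analysis.Analytic.Uniqueness
import Mathlib.Analysis.InnerProductSpace.Calculus
import Mathlib.Analysis.Calculus.ContDiff.Basic
import Mathlib.Analysis.Calculus.InverseFunctionTheorem.ContDiff

/-!
# P284 (helper212), module C: continuation of the sheet relation

`γ : ℂˢ → H` analytic, projectively immersive at `b₀`. There is a chart `P = ℓ/ℓ₀` of the projective
space near `[γ b₀]` in which `[γ]` is a graph. An analytic map `w : N → H`, `N` open and connected,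
which stays in the domain of the chart and lies on `[γ]` near one point, lies on `[γ]` everywhere.
-/

open scoped Topology ContDiff
open Filter Set Metric

noncomputable section

namespace Vale.Agent.P284.H212

open Vale.Agent.P272.K Vale.Agent.P284.H573

variable {s : ℕ} {H : Type} [NormedAddCommGroup H] [InnerProductSpace ℂ H]

/-- a chart of the projective space in which `[γ]` is a graph -/
structure PC (γ : Cm s → H) (b₀ : Cm s) where
  l₀ : H →L[ℂ] ℂ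
  l : H →L[ℂ] Cm s
  g : Cm s → Cm s
  r₁ : ℝ
  r₂ : ℝ
  R : ℝ
  r₁_pos : 0 < r₁
  r₂_pos : 0 < r₂
  r₁_le : r₁ ≤ R
  γan : ∀ b ∈ ball b₀ R, AnalyticAt ℂ γ b
  l₀_b₀ : l₀ (γ b₀) = 1
  l_b₀ : l (γ b₀) = 0
  l₀_ne : ∀ b ∈ ball b₀ r₁, l₀ (γ b) ≠ 0
  mapsP : ∀ b ∈ ball b₀ r₁, (l₀ (γ b))⁻¹ • l (γ b) ∈ ball (0 : Cm s) r₂
  gP : ∀ b ∈ ball b₀ r₁, g ((l₀ (γ b))⁻¹ • l (γ b)) = b
  gan : ∀ x ∈ ball (0 : Cm s) r₂, AnalyticAt ℂ g x
  g_mem : ∀ x ∈ ball (0 : Cm s) r₂, g x ∈ ball b₀ R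
  l₀_g : ∀ x ∈ ball (0 : Cm s) r₂, l₀ (γ (g x)) ≠ 0
  Pg : ∀ x ∈ ball (0 : Cm s) r₂, (l₀ (γ (g x)))⁻¹ • l (γ (g x)) = x

section
variable {γ : Cm s → H} {b₀ : Cm s}

/-- the chart -/
def PC.P (C : PC γ b₀) (x : H) : Cm s := (C.l₀ x)⁻¹ • C.l x

lemma PC.P_smul (C : PC γ b₀) {a : ℂ} (ha : a ≠ 0) (x : H) : C.P (a • x) = C.P x := by
  unfold PC.P
  rw [map_smul, map_smul, smul_eq_mul, mul_inv, smul_smul, mul_assoc, mul_comm (C.l₀ x)⁻¹,
    ← mul_assoc, inv_mul_cancel₀ ha, one_mul]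

lemma PC.R_pos (C : PC γ b₀) : 0 < C.R := C.r₁_pos.trans_le C.r₁_le

/-- existence of the chart; the radius `R` can be prescribed -/
theorem exists_pc [CompleteSpace H] (hγ : AnalyticAt ℂ γ b₀) (himm : ImmAt γ b₀) {R₀ : ℝ}
    (hR₀ : 0 < R₀) : ∃ C : PC γ b₀, C.R ≤ R₀ := by
  classical
  obtain ⟨h0, hi⟩ := himm
  have hn0 : (‖γ b₀‖ : ℂ) ^ 2 ≠ 0 := by
    have : (‖γ b₀‖ : ℂ) ≠ 0 := by exact_mod_cast norm_ne_zero_iff.2 h0
    exact pow_ne_zero 2 this
  -- the functionals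
  set l₀ : H →L[ℂ] ℂ := ((‖γ b₀‖ : ℂ) ^ 2)⁻¹ • innerSL ℂ (γ b₀) with hl₀
  have hl₀a : ∀ x, l₀ x = ((‖γ b₀‖ : ℂ) ^ 2)⁻¹ * inner ℂ (γ b₀) x := fun x => rfl
  have h1 : l₀ (γ b₀) = 1 := by
    rw [hl₀a, inner_self_eq_norm_sq_to_K]
    exact inv_mul_cancel₀ hn0
  set M : Cm s →L[ℂ] H := fderiv ℂ γ b₀ - (l₀ ∘L fderiv ℂ γ b₀).smulRight (γ b₀) with hM
  have hMa : ∀ v, M v = fderiv ℂ γ b₀ v - (l₀ (fderiv ℂ γ b₀ v)) • γ b₀ := fun v => rfl
  have hMi : ∀ v, M v = 0 → v = 0 := by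
    intro v hv
    rw [hMa, sub_eq_zero] at hv
    exact hi v _ hv
  have hl₀M : ∀ v, inner ℂ (γ b₀) (M v) = 0 := by
    intro v
    have : l₀ (M v) = 0 := by rw [hMa, map_sub, map_smul, h1, smul_eq_mul, mul_one, sub_self]
    rw [hl₀a] at this
    exact (mul_eq_zero.1 this).resolve_left (inv_ne_zero hn0)
  set l : H →L[ℂ] Cm s := ContinuousLinearMap.pi fun j => innerSL ℂ (M (Pi.single j 1)) with hl
  have hla : ∀ x j, l x j = inner ℂ (M (Pi.single j 1)) x := fun x j => rfl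
  have h2 : l (γ b₀) = 0 := by
    funext j
    rw [hla, ← inner_conj_symm, hl₀M, map_zero]
    rfl
  have hinj : Function.Injective (l ∘L M) := by
    rw [injective_iff_map_eq_zero]
    intro v hv
    apply hMi
    have hMv : M v = ∑ j, v j • M (Pi.single j 1) := by
      conv_lhs => rw [pi_eq_sum_univ' v]
      rw [map_sum]
      refine Finset.sum_congr rfl fun j _ => ?_
      rw [map_smul]
    have h3 : inner ℂ (M v) (M v) = 0 := by
      conv_lhs => rw [show inner ℂ (M v) (M v) = inner ℂ (∑ j, v j • M (Pi.single j 1)) (M v) by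
        rw [← hMv]]
      rw [sum_inner]
      refine Finset.sum_eq_zero fun j _ => ?_
      rw [inner_smul_left]
      have : l (M v) j = 0 := congrFun hv j
      rw [hla] at this
      rw [this, mul_zero]
    exact inner_self_eq_zero.1 h3
  set f' : Cm s ≃L[ℂ] Cm s := (LinearEquiv.ofInjectiveEndo
    ((l ∘L M : Cm s →L[ℂ] Cm s) : Cm s →ₗ[ℂ] Cm s) hinj).toContinuousLinearEquiv with hf'
  have hf'a : ∀ v, f' v = l (M v) := fun v => rfl
  -- the chart along `γ`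
  set f : Cm s → Cm s := fun b => (l₀ (γ b))⁻¹ • l (γ b) with hf
  have hl₀γ : AnalyticAt ℂ (fun b => l₀ (γ b)) b₀ := (l₀.analyticAt _).comp hγ
  have hlγ : AnalyticAt ℂ (fun b => l (γ b)) b₀ := (l.analyticAt _).comp hγ
  have hne : l₀ (γ b₀) ≠ 0 := by rw [h1]; exact one_ne_zero
  have hfan : AnalyticAt ℂ f b₀ := (hl₀γ.inv hne).smul hlγ
  have hfd : HasFDerivAt f (f' : Cm s →L[ℂ] Cm s) b₀ := by
    have d1 : HasFDerivAt (fun b => l₀ (γ b)) (l₀ ∘L fderiv ℂ γ b₀) b₀ :=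
      l₀.hasFDerivAt.comp b₀ hγ.differentiableAt.hasFDerivAt
    have d2 : HasFDerivAt (fun b => l (γ b)) (l ∘L fderiv ℂ γ b₀) b₀ :=
      l.hasFDerivAt.comp b₀ hγ.differentiableAt.hasFDerivAt
    have d3 : HasFDerivAt (fun b => (l₀ (γ b))⁻¹) _ b₀ := (hasFDerivAt_inv hne).comp b₀ d1
    have d4 := d3.smul d2
    refine d4.congr_fderiv (ContinuousLinearMap.ext fun v => ?_)
    have e1 : (f' : Cm s →L[ℂ] Cm s) v = l (fderiv ℂ γ b₀ v) := by
      show l (M v) = _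
      rw [hMa, map_sub, map_smul, h2, smul_zero, sub_zero]
    rw [h1, h2, e1]
    simp
  have hfc : ContDiffAt ℂ ω f b₀ := hfan.contDiffAt
  set gg : Cm s → Cm s := hfc.localInverse hfd (by simp) with hgg
  have hf0 : f b₀ = 0 := by simp only [hf, h2, smul_zero]
  have hgc : ContDiffAt ℂ ω gg 0 := by
    have := hfc.to_localInverse hfd (by simp)
    rwa [hf0] at this
  have hgan : AnalyticAt ℂ gg 0 := hgc.analyticAt
  have hst : HasStrictFDerivAt f (f' : Cm s →L[ℂ] Cm s) b₀ := hfc.hasStrictFDerivAt' hfd (by simp)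
  have hleft : ∀ᶠ b in 𝓝 b₀, gg (f b) = b := hst.eventually_left_inverse
  have hright : ∀ᶠ x in 𝓝 (0 : Cm s), f (gg x) = x := by
    have := hst.eventually_right_inverse
    rwa [hf0] at this
  have hg0 : gg 0 = b₀ := by
    have := hleft.self_of_nhds
    rwa [hf0] at this
  -- radii
  obtain ⟨R₁, hR₁, hγR⟩ := Metric.eventually_nhds_iff_ball.1 hγ.eventually_analyticAt
  obtain ⟨R₂, hR₂, hneR⟩ := Metric.eventually_nhds_iff_ball.1
    (hl₀γ.continuousAt.eventually_ne hne)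
  set R : ℝ := min (min R₁ R₂) R₀ with hR
  have hRpos : 0 < R := by positivity
  have hgt : Tendsto gg (𝓝 0) (𝓝 b₀) := by
    have := hgan.continuousAt.tendsto
    rwa [hg0] at this
  obtain ⟨r₂, hr₂, hr₂b⟩ := Metric.eventually_nhds_iff_ball.1
    (hgan.eventually_analyticAt.and (hright.and (hgt.eventually (ball_mem_nhds b₀ hRpos))))
  have hft : Tendsto f (𝓝 b₀) (𝓝 0) := by
    have := hfan.continuousAt.tendsto
    rwa [hf0] at this
  obtain ⟨r₁, hr₁, hr₁b⟩ := Metric.eventually_nhds_iff_ball.1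
    (hleft.and (hft.eventually (ball_mem_nhds 0 hr₂)))
  have hsubR : min r₁ R ≤ R := min_le_right _ _
  have hball : ∀ b ∈ ball b₀ (min r₁ R), b ∈ ball b₀ r₁ := fun b hb =>
    ball_subset_ball (min_le_left _ _) hb
  have hRR₂ : ∀ b ∈ ball b₀ R, l₀ (γ b) ≠ 0 := fun b hb =>
    hneR b (ball_subset_ball ((min_le_left _ _).trans (min_le_right _ _)) hb)
  refine ⟨{ l₀ := l₀, l := l, g := gg, r₁ := min r₁ R, r₂ := r₂, R := R
            r₁_pos := lt_min hr₁ hRpos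
            r₂_pos := hr₂
            r₁_le := hsubR
            γan := fun b hb => hγR b (ball_subset_ball
              ((min_le_left _ _).trans (min_le_left _ _)) hb)
            l₀_b₀ := h1
            l_b₀ := h2
            l₀_ne := fun b hb => hRR₂ b (ball_subset_ball hsubR hb)
            mapsP := fun b hb => (hr₁b b (hball b hb)).2
            gP := fun b hb => (hr₁b b (hball b hb)).1
            gan := fun x hx => (hr₂b x hx).1
            g_mem := fun x hx => (hr₂b x hx).2.2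
            l₀_g := fun x hx => hRR₂ _ (hr₂b x hx).2.2
            Pg := fun x hx => (hr₂b x hx).2.1 }, min_le_right _ _⟩

/-- the factor in the sheet relation -/
def PC.a (C : PC γ b₀) (x : H) : ℂ := C.l₀ x / C.l₀ (γ (C.g (C.P x)))

/-- `x` lies over the domain of the chart -/
def PC.Dom (C : PC γ b₀) (x : H) : Prop := C.l₀ x ≠ 0 ∧ C.P x ∈ ball (0 : Cm s) C.r₂

lemma PC.a_ne (C : PC γ b₀) {x : H} (hx : C.Dom x) : C.a x ≠ 0 :=
  div_ne_zero hx.1 (C.l₀_g _ hx.2)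

lemma PC.dom_γ (C : PC γ b₀) {b : Cm s} (hb : b ∈ ball b₀ C.r₁) : C.Dom (γ b) :=
  ⟨C.l₀_ne b hb, C.mapsP b hb⟩

lemma PC.dom_smul (C : PC γ b₀) {a : ℂ} (ha : a ≠ 0) {x : H} : C.Dom (a • x) ↔ C.Dom x := by
  unfold PC.Dom
  rw [C.P_smul ha, map_smul, smul_eq_mul]
  simp [ha]

/-- the domain is a neighbourhood of `γ b₀` -/
lemma PC.dom_nhds (C : PC γ b₀) : ∀ᶠ x in 𝓝 (γ b₀), C.Dom x := by
  have h0 : C.l₀ (γ b₀) ≠ 0 := by rw [C.l₀_b₀]; exact one_ne_zero
  have h1 : ContinuousAt C.l₀ (γ b₀) := C.l₀.continuous.continuousAt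
  have h2 : ContinuousAt C.P (γ b₀) := (h1.inv₀ h0).smul C.l.continuous.continuousAt
  have h3 : C.P (γ b₀) = 0 := by unfold PC.P; rw [C.l_b₀, smul_zero]
  refine (h1.eventually_ne h0).and ?_
  have := h2.tendsto
  rw [h3] at this
  exact this.eventually (ball_mem_nhds 0 C.r₂_pos)

lemma PC.dom_open (C : PC γ b₀) : IsOpen {x | C.Dom x} := by
  rw [isOpen_iff_mem_nhds]
  rintro x ⟨hx1, hx2⟩
  have h1 : ContinuousAt C.l₀ x := C.l₀.continuous.continuousAt
  have h2 : ContinuousAt C.P x := (h1.inv₀ hx1).smul C.l.continuous.continuousAt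
  exact (h1.eventually_ne hx1).and (h2.eventually (isOpen_ball.mem_nhds hx2))

/-- on the sheet, the chart inverts `γ` -/
lemma PC.g_of (C : PC γ b₀) {x : H} {a : ℂ} {b : Cm s} (hb : b ∈ ball b₀ C.r₁) (ha : a ≠ 0)
    (h : x = a • γ b) : C.Dom x ∧ C.g (C.P x) = b ∧ C.a x = a := by
  have h1 : C.P x = C.P (γ b) := by rw [h, C.P_smul ha]
  have h2 : C.g (C.P x) = b := by rw [h1]; exact C.gP b hb
  refine ⟨?_, h2, ?_⟩
  · rw [h, C.dom_smul ha]; exact C.dom_γ hb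
  · unfold PC.a
    rw [h2, h, map_smul, smul_eq_mul, mul_div_assoc, div_self (C.l₀_ne b hb), mul_one]

lemma PC.gP_an (C : PC γ b₀) {x : H} (hx : C.Dom x) : AnalyticAt ℂ (fun x => C.g (C.P x)) x := by
  have h1 : AnalyticAt ℂ C.P x := ((C.l₀.analyticAt x).inv hx.1).smul (C.l.analyticAt x)
  exact (C.gan _ hx.2).comp h1

lemma PC.a_an (C : PC γ b₀) {x : H} (hx : C.Dom x) : AnalyticAt ℂ C.a x := by
  refine (C.l₀.analyticAt x).div ?_ (C.l₀_g _ hx.2)
  refine (C.l₀.analyticAt _).comp ?_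
  exact AnalyticAt.comp (g := γ) (f := fun x => C.g (C.P x)) (C.γan _ (C.g_mem _ hx.2))
    (C.gP_an hx)

/-- the sheet relation -/
def PC.On (C : PC γ b₀) (x : H) : Prop := x = C.a x • γ (C.g (C.P x))

/-- two points of the small ball with the same line are equal -/
lemma PC.inj (C : PC γ b₀) {b b' : Cm s} (hb : b ∈ ball b₀ C.r₁) (hb' : b' ∈ ball b₀ C.r₁) {a : ℂ}
    (ha : a ≠ 0) (h : γ b = a • γ b') : b = b' := by
  have h1 := (C.g_of hb one_ne_zero (one_smul ℂ (γ b)).symm).2.1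
  have h2 := (C.g_of hb' ha h).2.1
  rw [← h1, h2]

/-- **continuation of the sheet relation** -/
theorem PC.cont [CompleteSpace H] (C : PC γ b₀) {V : Type} [NormedAddCommGroup V]
    [NormedSpace ℂ V] {N : Set V} (hc : IsPreconnected N) {w : V → H}
    (hw : ∀ z ∈ N, AnalyticAt ℂ w z) (hD : ∀ z ∈ N, C.Dom (w z)) {z₀ : V} (hz₀ : z₀ ∈ N)
    (h : ∀ᶠ z in 𝓝 z₀, C.On (w z)) {z : V} (hz : z ∈ N) : C.On (w z) := by
  have h1 : AnalyticOnNhd ℂ w N := hw
  have h2 : AnalyticOnNhd ℂ (fun z => C.a (w z) • γ (C.g (C.P (w z)))) N := by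
    intro z hz
    refine AnalyticAt.smul ((C.a_an (hD z hz)).comp (hw z hz)) ?_
    exact AnalyticAt.comp (g := γ) (f := fun z => C.g (C.P (w z)))
      (C.γan _ (C.g_mem _ (hD z hz).2))
      (AnalyticAt.comp (g := fun x => C.g (C.P x)) (C.gP_an (hD z hz)) (hw z hz))
  exact h1.eqOn_of_preconnected_of_eventuallyEq h2 hc hz₀ h hz

end

end Vale.Agent.P284.H212
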