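import Vale.Agent.P272.K.Stmt
import Vale.Agent.P299.H720.Montel
import Mathlib.Analysis.InnerProductSpace.Calculus
import Mathlib.Analysis.Normed.Module.FiniteDimension
import Mathlib.Analysis.Calculus.MeanValue
import Mathlib.Analysis.Analytic.Basic
import Mathlib.Analysis.Calculus.InverseFunctionTheorem.FDeriv

/-!
# P284 (helper212), module C, piece (C1): the core of the discreteness argument

`Γ : ℂʳ → H` is analytic and immersive at `a`. Rigid motions `V = U Γ + c` of the disc which slide the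
disc in itself, `V u = Γ (φ u)`, are controlled by the displacement of finitely many points; the
normalised displacements converge to a nonzero vector field `ζ`, with
`⟪Z u - Z u', Γ a - Γ b⟫ + ⟪Γ u - Γ u', Z a - Z b⟫ = 0` for `Z = dΓ(ζ)`; the real vector space of these
fields is finite dimensional.
-/

open scoped Topology ContDiff
open Filter Set Metric

noncomputable section

namespace Vale.Agent.P284.H212

open Vale.Agent.P272.K

variable {r : ℕ} {H : Type*} [NormedAddCommGroup H] [InnerProductSpace ℂ H]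

/-- the cluster of `2 r + 1` points -/
def clu (r : ℕ) (τ : ℝ) : Option (Fin r × Bool) → Cm r
  | none => 0
  | some (j, b) => Pi.single j (if b then (τ : ℂ) * Complex.I else (τ : ℂ))

lemma norm_clu (τ : ℝ) (hτ : 0 < τ) (i : Option (Fin r × Bool)) : ‖clu r τ i‖ ≤ τ := by
  rcases i with _ | ⟨j, b⟩
  · simpa [clu] using hτ.le
  · have h1 : ‖(if b then (τ : ℂ) * Complex.I else (τ : ℂ))‖ = τ := by
      cases b <;> simp [abs_of_pos hτ]
    simp only [clu]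
    rw [pi_norm_le_iff_of_nonneg hτ.le]
    intro k
    by_cases hk : k = j
    · subst hk
      rw [Pi.single_eq_same, h1]
    · rw [Pi.single_eq_of_ne hk, norm_zero]
      exact hτ.le

/-- `Γ` is close to the injective linear map `L` on the ball of radius `R` about `a`. -/
structure Disc (Γ : Cm r → H) (a : Cm r) (L : Cm r →L[ℂ] H) (R δ κ : ℝ) : Prop where
  R_pos : 0 < R
  κ_pos : 0 < κ
  δ_nonneg : 0 ≤ δ
  δ_le : δ ≤ 1
  an : ∀ u ∈ ball a R, AnalyticAt ℂ Γ u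
  low : ∀ v, κ * ‖v‖ ≤ ‖L v‖
  lip : ∀ x ∈ ball a R, ∀ y ∈ ball a R, ‖Γ x - Γ y - L (x - y)‖ ≤ δ * ‖x - y‖
  small : (2 * r * (‖L‖ + 1) + ‖L‖) * δ ≤ κ ^ 2 / 2

section
variable {Γ : Cm r → H} {a : Cm r} {L : Cm r →L[ℂ] H} {R δ κ : ℝ}

lemma Disc.mono (hD : Disc Γ a L R δ κ) {R' : ℝ} (h0 : 0 < R') (h : R' ≤ R) :
    Disc Γ a L R' δ κ :=
  { hD with
    R_pos := h0
    an := fun u hu => hD.an u (ball_subset_ball h hu)
    lip := fun x hx y hy => hD.lip x (ball_subset_ball h hx) y (ball_subset_ball h hy) }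

lemma exists_low (L : Cm r →L[ℂ] H) (hL : Function.Injective L) :
    ∃ κ > 0, ∀ v, κ * ‖v‖ ≤ ‖L v‖ := by
  obtain ⟨K, hK, h⟩ := (L : Cm r →ₗ[ℂ] H).exists_antilipschitzWith
    (LinearMap.ker_eq_bot.2 hL)
  refine ⟨(K : ℝ)⁻¹, by positivity, fun v => ?_⟩
  have h1 := h.le_mul_dist v 0
  simp only [dist_zero_right, ContinuousLinearMap.coe_coe, map_zero] at h1
  have hK0 : (0 : ℝ) < K := by exact_mod_cast hK
  rw [inv_mul_le_iff₀ hK0]
  exact h1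

/-- existence of the constants -/
theorem exists_disc [CompleteSpace H] (hΓ : AnalyticAt ℂ Γ a)
    (hinj : Function.Injective (fderiv ℂ Γ a)) :
    ∃ R δ κ, Disc Γ a (fderiv ℂ Γ a) R δ κ := by
  set L := fderiv ℂ Γ a with hLdef
  obtain ⟨κ, hκ, hlow⟩ := exists_low L hinj
  set B : ℝ := 2 * r * (‖L‖ + 1) + ‖L‖ + 1 with hB
  have hB0 : 0 < B := by positivity
  set δ : ℝ := min 1 (κ ^ 2 / 2 / B) with hδ
  have hδ0 : 0 < δ := by positivity
  have hs : HasStrictFDerivAt Γ L a := hΓ.hasStrictFDerivAt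
  obtain ⟨s, hs1, hs2⟩ := hs.approximates_deriv_on_nhds (c := ⟨δ, hδ0.le⟩) (Or.inr hδ0)
  obtain ⟨R1, hR1, h1⟩ := Metric.mem_nhds_iff.1 hs1
  obtain ⟨R2, hR2, h2⟩ := Metric.mem_nhds_iff.1 hΓ.eventually_analyticAt
  refine ⟨min R1 R2, δ, κ, ⟨lt_min hR1 hR2, hκ, hδ0.le, min_le_left _ _, ?_, hlow, ?_, ?_⟩⟩
  · intro u hu
    exact h2 (ball_subset_ball (min_le_right _ _) hu)
  · intro x hx y hy
    exact hs2 x (h1 (ball_subset_ball (min_le_left _ _) hx)) y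
      (h1 (ball_subset_ball (min_le_left _ _) hy))
  · have h3 : δ * B ≤ κ ^ 2 / 2 := by
      have h4 : δ ≤ κ ^ 2 / 2 / B := min_le_right _ _
      calc δ * B ≤ κ ^ 2 / 2 / B * B := mul_le_mul_of_nonneg_right h4 hB0.le
        _ = κ ^ 2 / 2 := by field_simp
    have h4 : (2 * r * (‖L‖ + 1) + ‖L‖) * δ ≤ δ * B := by
      rw [hB]
      nlinarith [hδ0]
    exact h4.trans h3

lemma Disc.a_mem (hD : Disc Γ a L R δ κ) : a ∈ ball a R := mem_ball_self hD.R_pos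

lemma Disc.clu_mem {R τ : ℝ} (a : Cm r) (hτ0 : 0 < τ) (hτ : τ < R) (i : Option (Fin r × Bool)) :
    a + clu r τ i ∈ ball a R := by
  rw [mem_ball, dist_eq_norm, add_sub_cancel_left]
  exact (norm_clu τ hτ0 i).trans_lt hτ

/-- the fundamental estimate -/
lemma Disc.core (hD : Disc Γ a L R δ κ) {τ : ℝ} (hτ0 : 0 < τ) (hτ : τ < R) {h : H} {v : Cm r}
    (hv : ‖h - L v‖ ≤ δ * ‖v‖) {ε : ℝ} (hε : 0 ≤ ε)
    (hp : ∀ i, |(inner ℂ h (Γ (a + clu r τ i) - Γ a)).re| ≤ ε) :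
    ‖v‖ ≤ 4 * r / (κ ^ 2 * τ) * ε := by
  have hκ := hD.κ_pos
  have hδ := hD.δ_nonneg
  have hh : ‖h‖ ≤ (‖L‖ + 1) * ‖v‖ := by
    calc ‖h‖ = ‖(h - L v) + L v‖ := by rw [sub_add_cancel]
      _ ≤ ‖h - L v‖ + ‖L v‖ := norm_add_le _ _
      _ ≤ δ * ‖v‖ + ‖L‖ * ‖v‖ := add_le_add hv (L.le_opNorm v)
      _ ≤ 1 * ‖v‖ + ‖L‖ * ‖v‖ := by
          have := hD.δ_le
          gcongr
      _ = (‖L‖ + 1) * ‖v‖ := by ring
  -- the two real products
  have hreal : ∀ (z : Cm r), ‖z‖ ≤ τ → z + a ∈ ball a R →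
      |(inner ℂ h (Γ (a + z) - Γ a)).re| ≤ ε →
      |(inner ℂ h (L z)).re| ≤ ε + ‖h‖ * (δ * τ) := by
    intro z hz hzR hre
    have h1 := hD.lip (a + z) (by rwa [add_comm]) a hD.a_mem
    rw [add_sub_cancel_left] at h1
    have h2 : inner ℂ h (L z) = inner ℂ h (Γ (a + z) - Γ a) -
        inner ℂ h (Γ (a + z) - Γ a - L z) := by
      rw [← inner_sub_right]; congr 1; abel
    rw [h2, Complex.sub_re]
    have h3 : |(inner ℂ h (Γ (a + z) - Γ a - L z)).re| ≤ ‖h‖ * (δ * τ) := by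
      refine (Complex.abs_re_le_norm _).trans ((norm_inner_le_norm _ _).trans ?_)
      gcongr
      exact h1.trans (by gcongr)
    have h4 := abs_sub (inner ℂ h (Γ (a + z) - Γ a)).re
      (inner ℂ h (Γ (a + z) - Γ a - L z)).re
    linarith
  have hcomp : ∀ j : Fin r, ‖inner ℂ h (L (Pi.single j 1))‖ ≤ 2 / τ * (ε + ‖h‖ * (δ * τ)) := by
    intro j
    have e1 : clu r τ (some (j, false)) = (τ : ℂ) • (Pi.single j 1 : Cm r) := by
      simp only [clu]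
      rw [← Pi.single_smul]
      simp
    have e2 : clu r τ (some (j, true)) = ((τ : ℂ) * Complex.I) • (Pi.single j 1 : Cm r) := by
      simp only [clu]
      rw [← Pi.single_smul]
      simp
    have m1 := hreal _ (norm_clu τ hτ0 (some (j, false)))
      (by rw [add_comm]; exact Disc.clu_mem a hτ0 hτ _) (hp (some (j, false)))
    have m2 := hreal _ (norm_clu τ hτ0 (some (j, true)))
      (by rw [add_comm]; exact Disc.clu_mem a hτ0 hτ _) (hp (some (j, true)))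
    rw [e1, map_smul, inner_smul_right] at m1
    rw [e2, map_smul, inner_smul_right] at m2
    set z : ℂ := inner ℂ h (L (Pi.single j 1)) with hz
    have r1 : ((τ : ℂ) * z).re = τ * z.re := by simp
    have r2 : ((τ : ℂ) * Complex.I * z).re = - (τ * z.im) := by
      simp [mul_assoc]
    rw [r1, abs_mul, abs_of_pos hτ0] at m1
    rw [r2, abs_neg, abs_mul, abs_of_pos hτ0] at m2
    have h5 : ‖z‖ ≤ |z.re| + |z.im| := Complex.norm_le_abs_re_add_abs_im z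
    have h6 : τ * ‖z‖ ≤ 2 * (ε + ‖h‖ * (δ * τ)) := by
      calc τ * ‖z‖ ≤ τ * (|z.re| + |z.im|) := by gcongr
        _ = τ * |z.re| + τ * |z.im| := by ring
        _ ≤ 2 * (ε + ‖h‖ * (δ * τ)) := by linarith
    rw [div_mul_eq_mul_div, le_div_iff₀ hτ0]
    linarith
  -- expand `L v`
  have hLv : L v = ∑ j, v j • L (Pi.single j 1) := by
    conv_lhs => rw [pi_eq_sum_univ' v]
    rw [map_sum]
    refine Finset.sum_congr rfl fun j _ => ?_
    rw [map_smul]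
  have h7 : ‖inner ℂ h (L v)‖ ≤ r * (‖v‖ * (2 / τ * (ε + ‖h‖ * (δ * τ)))) := by
    rw [hLv, inner_sum]
    refine (norm_sum_le _ _).trans ?_
    have : ∀ j ∈ (Finset.univ : Finset (Fin r)), ‖inner ℂ h (v j • L (Pi.single j 1))‖ ≤
        ‖v‖ * (2 / τ * (ε + ‖h‖ * (δ * τ))) := by
      intro j _
      rw [inner_smul_right, norm_mul]
      exact mul_le_mul (norm_le_pi_norm v j) (hcomp j) (norm_nonneg _) (norm_nonneg _)
    refine (Finset.sum_le_sum this).trans ?_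
    simp
  have h8 : ‖L v‖ ^ 2 ≤ ‖inner ℂ h (L v)‖ + δ * ‖v‖ * (‖L‖ * ‖v‖) := by
    have e : ((‖L v‖ ^ 2 : ℝ) : ℂ) = inner ℂ h (L v) - inner ℂ (h - L v) (L v) := by
      rw [inner_sub_left, sub_sub_cancel, inner_self_eq_norm_sq_to_K]
      norm_cast
    have e2 : ‖L v‖ ^ 2 = ‖((‖L v‖ ^ 2 : ℝ) : ℂ)‖ := by
      rw [Complex.norm_real, Real.norm_of_nonneg (by positivity)]
    rw [e2, e]
    refine (norm_sub_le _ _).trans ?_
    gcongr
    refine (norm_inner_le_norm _ _).trans ?_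
    gcongr
    exact L.le_opNorm v
  have h9 : κ ^ 2 * ‖v‖ ^ 2 ≤ ‖L v‖ ^ 2 := by
    have := hD.low v
    calc κ ^ 2 * ‖v‖ ^ 2 = (κ * ‖v‖) ^ 2 := by ring
      _ ≤ ‖L v‖ ^ 2 := by gcongr
  rcases (norm_nonneg v).eq_or_lt with h0 | h0
  · rw [← h0]; positivity
  -- divide by `‖v‖`
  have h10 : κ ^ 2 * ‖v‖ ≤ r * (2 / τ * (ε + (‖L‖ + 1) * ‖v‖ * (δ * τ))) + δ * (‖L‖ * ‖v‖) := by
    have h11 : κ ^ 2 * ‖v‖ ^ 2 ≤ (r * (2 / τ * (ε + (‖L‖ + 1) * ‖v‖ * (δ * τ))) +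
        δ * (‖L‖ * ‖v‖)) * ‖v‖ := by
      calc κ ^ 2 * ‖v‖ ^ 2 ≤ r * (‖v‖ * (2 / τ * (ε + ‖h‖ * (δ * τ)))) +
            δ * ‖v‖ * (‖L‖ * ‖v‖) := (h9.trans h8).trans (by gcongr)
        _ ≤ r * (‖v‖ * (2 / τ * (ε + (‖L‖ + 1) * ‖v‖ * (δ * τ)))) +
            δ * ‖v‖ * (‖L‖ * ‖v‖) := by gcongr
        _ = _ := by ring
    have h12 : κ ^ 2 * ‖v‖ * ‖v‖ ≤ (r * (2 / τ * (ε + (‖L‖ + 1) * ‖v‖ * (δ * τ))) +
        δ * (‖L‖ * ‖v‖)) * ‖v‖ := by
      calc κ ^ 2 * ‖v‖ * ‖v‖ = κ ^ 2 * ‖v‖ ^ 2 := by ring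
        _ ≤ _ := h11
    exact le_of_mul_le_mul_right h12 h0
  have h13 : r * (2 / τ * (ε + (‖L‖ + 1) * ‖v‖ * (δ * τ))) + δ * (‖L‖ * ‖v‖) =
      2 * r / τ * ε + (2 * r * (‖L‖ + 1) + ‖L‖) * δ * ‖v‖ := by
    field_simp
    ring
  rw [h13] at h10
  have h14 : (2 * r * (‖L‖ + 1) + ‖L‖) * δ * ‖v‖ ≤ κ ^ 2 / 2 * ‖v‖ := by
    gcongr
    exact hD.small
  have h15 : κ ^ 2 / 2 * ‖v‖ ≤ 2 * r / τ * ε := by linarith
  have h16 : ‖v‖ = (κ ^ 2 / 2 * ‖v‖) * (2 / κ ^ 2) := by field_simp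
  rw [h16]
  calc κ ^ 2 / 2 * ‖v‖ * (2 / κ ^ 2) ≤ 2 * r / τ * ε * (2 / κ ^ 2) := by gcongr
    _ = 4 * r / (κ ^ 2 * τ) * ε := by field_simp; ring

lemma Disc.δ_half (hD : Disc Γ a L R δ κ) {v : Cm r} (h0 : 0 < ‖v‖) : δ ≤ κ / 2 := by
  have hκ := hD.κ_pos
  have h1 : κ ≤ ‖L‖ := by
    have := (hD.low v).trans (L.le_opNorm v)
    exact le_of_mul_le_mul_right this h0
  have h3 := hD.small
  have h4 : ‖L‖ * δ ≤ (2 * r * (‖L‖ + 1) + ‖L‖) * δ := by
    have := hD.δ_nonneg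
    gcongr
    have : (0 : ℝ) ≤ 2 * r * (‖L‖ + 1) := by positivity
    linarith
  have h5 : κ * δ ≤ ‖L‖ * δ := mul_le_mul_of_nonneg_right h1 hD.δ_nonneg
  have h6 : κ * δ ≤ κ * (κ / 2) := by linarith [h3, h4, h5, sq κ]
  exact le_of_mul_le_mul_left h6 hκ

lemma Disc.anti (hD : Disc Γ a L R δ κ) {x y : Cm r} (hx : x ∈ ball a R) (hy : y ∈ ball a R) :
    ‖x - y‖ ≤ 2 / κ * ‖Γ x - Γ y‖ := by
  have hκ := hD.κ_pos
  rcases (norm_nonneg (x - y)).eq_or_lt with h0 | h0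
  · rw [← h0]; positivity
  have h2 : δ ≤ κ / 2 := hD.δ_half h0
  have h3 := hD.lip x hx y hy
  have h4 := hD.low (x - y)
  have h5 : ‖L (x - y)‖ ≤ ‖Γ x - Γ y‖ + δ * ‖x - y‖ := by
    calc ‖L (x - y)‖ = ‖(Γ x - Γ y) - (Γ x - Γ y - L (x - y))‖ := by rw [sub_sub_cancel]
      _ ≤ ‖Γ x - Γ y‖ + ‖Γ x - Γ y - L (x - y)‖ := norm_sub_le _ _
      _ ≤ _ := by gcongr
  have h6 : δ * ‖x - y‖ ≤ κ / 2 * ‖x - y‖ := by gcongr
  have h7 : κ / 2 * ‖x - y‖ ≤ ‖Γ x - Γ y‖ := by linarith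
  rw [div_mul_eq_mul_div, le_div_iff₀ hκ]
  linarith

lemma Disc.inj (hD : Disc Γ a L R δ κ) {x y : Cm r} (hx : x ∈ ball a R) (hy : y ∈ ball a R)
    (h : Γ x = Γ y) : x = y := by
  have := hD.anti hx hy
  rw [h, sub_self, norm_zero, mul_zero] at this
  exact sub_eq_zero.1 (norm_le_zero_iff.1 this)

lemma Disc.lips (hD : Disc Γ a L R δ κ) {x y : Cm r} (hx : x ∈ ball a R) (hy : y ∈ ball a R) :
    ‖Γ x - Γ y‖ ≤ (‖L‖ + 1) * ‖x - y‖ := by
  calc ‖Γ x - Γ y‖ = ‖(Γ x - Γ y - L (x - y)) + L (x - y)‖ := by rw [sub_add_cancel]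
    _ ≤ ‖Γ x - Γ y - L (x - y)‖ + ‖L (x - y)‖ := norm_add_le _ _
    _ ≤ δ * ‖x - y‖ + ‖L‖ * ‖x - y‖ := add_le_add (hD.lip x hx y hy) (L.le_opNorm _)
    _ ≤ 1 * ‖x - y‖ + ‖L‖ * ‖x - y‖ := by
        have := hD.δ_le
        gcongr
    _ = _ := by ring

lemma Disc.diam (hD : Disc Γ a L R δ κ) {x y : Cm r} (hx : x ∈ ball a R) (hy : y ∈ ball a R) :
    ‖Γ x - Γ y‖ ≤ (‖L‖ + 1) * (2 * R) := by
  refine (hD.lips hx hy).trans ?_
  have h1 : ‖x - y‖ ≤ 2 * R := by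
    rw [← dist_eq_norm]
    have := dist_triangle_right x y a
    rw [mem_ball] at hx hy
    linarith
  gcongr

lemma Disc.fderiv_sub (hD : Disc Γ a L R δ κ) {u : Cm r} (hu : u ∈ ball a R) (v : Cm r) :
    ‖fderiv ℂ Γ u v - L v‖ ≤ δ * ‖v‖ := by
  have h1 : HasFDerivAt (fun x => Γ x - L x) (fderiv ℂ Γ u - L) u :=
    (hD.an u hu).differentiableAt.hasFDerivAt.sub L.hasFDerivAt
  have h2 : ‖fderiv ℂ Γ u - L‖ ≤ δ := by
    refine h1.le_of_lip' hD.δ_nonneg ?_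
    filter_upwards [isOpen_ball.mem_nhds hu] with x hx
    have := hD.lip x hx u hu
    rw [map_sub] at this
    calc ‖Γ x - L x - (Γ u - L u)‖ = ‖Γ x - Γ u - (L x - L u)‖ := by congr 1; abel
      _ ≤ _ := this
  have h3 := (fderiv ℂ Γ u - L).le_opNorm v
  rw [_root_.sub_apply] at h3
  exact h3.trans (by gcongr)

/-- infinitesimal version of the fundamental estimate -/
lemma Disc.inf (hD : Disc Γ a L R δ κ) {τ : ℝ} (hτ0 : 0 < τ) (hτ : τ < R) {u : Cm r}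
    (hu : u ∈ ball a R) {v : Cm r} {ε : ℝ} (hε : 0 ≤ ε)
    (hp : ∀ i, |(inner ℂ (fderiv ℂ Γ u v) (Γ (a + clu r τ i) - Γ a)).re| ≤ ε) :
    ‖v‖ ≤ 4 * r / (κ ^ 2 * τ) * ε :=
  hD.core hτ0 hτ (hD.fderiv_sub hu v) hε hp

lemma Disc.fderiv_inj (hD : Disc Γ a L R δ κ) {u : Cm r} (hu : u ∈ ball a R) :
    Function.Injective (fderiv ℂ Γ u) := by
  rw [injective_iff_map_eq_zero]
  intro v hv
  have h1 := hD.inf (τ := R / 2) (half_pos hD.R_pos) (half_lt_self hD.R_pos) hu (v := v)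
    (le_refl (0 : ℝ)) (fun i => by rw [hv]; simp)
  simpa using h1

/-- the constant in the control of the displacements -/
def Disc.C (r : ℕ) (L : Cm r →L[ℂ] H) (R κ τ : ℝ) : ℝ :=
  4 * r / (κ ^ 2 * τ) * (2 * ((‖L‖ + 1) * (2 * R)))

lemma Disc.C_nonneg (hD : Disc Γ a L R δ κ) {τ : ℝ} (hτ0 : 0 < τ) : 0 ≤ Disc.C r L R κ τ := by
  have := hD.κ_pos
  have := hD.R_pos
  unfold Disc.C
  positivity

omit [InnerProductSpace ℂ H] in
lemma abs_sq_sub_sq (x b b' : H) {D : ℝ} (h1 : ‖x - b‖ ≤ D) (h2 : ‖x - b'‖ ≤ D) :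
    |‖x - b‖ ^ 2 - ‖x - b'‖ ^ 2| ≤ 2 * D * ‖b - b'‖ := by
  have h3 : ‖x - b‖ ^ 2 - ‖x - b'‖ ^ 2 = (‖x - b‖ + ‖x - b'‖) * (‖x - b‖ - ‖x - b'‖) := by ring
  have h4 : |‖x - b‖ - ‖x - b'‖| ≤ ‖b - b'‖ := by
    have := abs_norm_sub_norm_le (x - b) (x - b')
    have e : x - b - (x - b') = b' - b := by abel
    rwa [e, norm_sub_rev b' b] at this
  have h5 : |‖x - b‖ + ‖x - b'‖| ≤ 2 * D := by
    rw [abs_of_nonneg (by positivity)]
    linarith
  rw [h3, abs_mul]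
  have hD : 0 ≤ 2 * D := (abs_nonneg _).trans h5
  exact mul_le_mul h5 h4 (abs_nonneg _) hD

/-- a sliding of the disc in itself: `U Γ + c = Γ ∘ φ` on `S`. -/
structure Slide (Γ : Cm r → H) (a : Cm r) (R : ℝ) (S : Set (Cm r)) (U : H →ₗᵢ[ℂ] H) (c : H)
    (φ : Cm r → Cm r) : Prop where
  maps : ∀ u ∈ S, φ u ∈ ball a R
  eq : ∀ u ∈ S, U (Γ u) + c = Γ (φ u)

lemma Slide.sub_eq {S : Set (Cm r)} {U : H →ₗᵢ[ℂ] H} {c : H} {φ : Cm r → Cm r}
    (h : Slide Γ a R S U c φ) {u u' : Cm r} (hu : u ∈ S) (hu' : u' ∈ S) :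
    Γ (φ u) - Γ (φ u') = U (Γ u - Γ u') := by
  rw [← h.eq u hu, ← h.eq u' hu', map_sub]
  abel

lemma Slide.norm_eq {S : Set (Cm r)} {U : H →ₗᵢ[ℂ] H} {c : H} {φ : Cm r → Cm r}
    (h : Slide Γ a R S U c φ) {u u' : Cm r} (hu : u ∈ S) (hu' : u' ∈ S) :
    ‖Γ (φ u) - Γ (φ u')‖ = ‖Γ u - Γ u'‖ := by
  rw [h.sub_eq hu hu', LinearIsometry.norm_map]

/-- **chord estimate**: the displacement is controlled by the displacement of the cluster -/
theorem Disc.chord (hD : Disc Γ a L R δ κ) {τ : ℝ} (hτ0 : 0 < τ) (hτ : τ < R) {S : Set (Cm r)}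
    (hS : S ⊆ ball a R) (hSc : ∀ i, a + clu r τ i ∈ S) {U : H →ₗᵢ[ℂ] H} {c : H} {φ : Cm r → Cm r}
    (h : Slide Γ a R S U c φ) {M : ℝ}
    (hM : ∀ i, ‖Γ (φ (a + clu r τ i)) - Γ (a + clu r τ i)‖ ≤ M) {u : Cm r} (hu : u ∈ S) :
    ‖φ u - u‖ ≤ Disc.C r L R κ τ * M := by
  have hM0 : 0 ≤ M := (norm_nonneg _).trans (hM none)
  set D : ℝ := (‖L‖ + 1) * (2 * R) with hDdef
  have hD0 : 0 ≤ D := (norm_nonneg _).trans (hD.diam hD.a_mem hD.a_mem)
  have ha : a + clu r τ none = a := by simp [clu]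
  have hlip : ‖(Γ (φ u) - Γ u) - L (φ u - u)‖ ≤ δ * ‖φ u - u‖ :=
    hD.lip _ (h.maps u hu) _ (hS hu)
  have hre : ∀ i, |(inner ℂ (Γ (φ u) - Γ u) (Γ (a + clu r τ i) - Γ a)).re| ≤ 2 * D * M := by
    intro i
    set p := a + clu r τ i with hp
    have hpS : p ∈ S := hSc i
    have haS : a ∈ S := by
      have := hSc none
      rwa [ha] at this
    have e1 : (inner ℂ (Γ (φ u) - Γ u) (Γ p - Γ a)).re =
        ((‖Γ (φ u) - Γ a‖ ^ 2 - ‖Γ (φ u) - Γ p‖ ^ 2) -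
          (‖Γ u - Γ a‖ ^ 2 - ‖Γ u - Γ p‖ ^ 2)) / 2 := by
      have q1 := norm_sub_sq (𝕜 := ℂ) (Γ (φ u)) (Γ a)
      have q2 := norm_sub_sq (𝕜 := ℂ) (Γ (φ u)) (Γ p)
      have q3 := norm_sub_sq (𝕜 := ℂ) (Γ u) (Γ a)
      have q4 := norm_sub_sq (𝕜 := ℂ) (Γ u) (Γ p)
      rw [q1, q2, q3, q4, inner_sub_left, inner_sub_right, inner_sub_right]
      simp only [Complex.sub_re, RCLike.re_to_complex]
      ring
    rw [e1]
    have e2 : ‖Γ u - Γ a‖ = ‖Γ (φ u) - Γ (φ a)‖ := (h.norm_eq hu haS).symm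
    have e3 : ‖Γ u - Γ p‖ = ‖Γ (φ u) - Γ (φ p)‖ := (h.norm_eq hu hpS).symm
    rw [e2, e3]
    have f1 := abs_sq_sub_sq (Γ (φ u)) (Γ (φ a)) (Γ a) (D := D)
      (hD.diam (h.maps u hu) (h.maps a haS)) (hD.diam (h.maps u hu) hD.a_mem)
    have f2 := abs_sq_sub_sq (Γ (φ u)) (Γ (φ p)) (Γ p) (D := D)
      (hD.diam (h.maps u hu) (h.maps p hpS)) (hD.diam (h.maps u hu) (hS hpS))
    have g1 : ‖Γ (φ a) - Γ a‖ ≤ M := by
      have := hM none
      rwa [ha] at this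
    have g2 : ‖Γ (φ p) - Γ p‖ ≤ M := hM i
    have k1 : 2 * D * ‖Γ (φ a) - Γ a‖ ≤ 2 * D * M := by gcongr
    have k2 : 2 * D * ‖Γ (φ p) - Γ p‖ ≤ 2 * D * M := by gcongr
    rw [abs_le] at f1 f2 ⊢
    constructor <;> linarith [f1.1, f1.2, f2.1, f2.2]
  have := hD.core hτ0 hτ hlip (by positivity) hre
  refine this.trans (le_of_eq ?_)
  unfold Disc.C
  ring

/-- (iv): if the cluster is fixed, nothing moves -/
theorem Disc.fixed (hD : Disc Γ a L R δ κ) {τ : ℝ} (hτ0 : 0 < τ) (hτ : τ < R) {S : Set (Cm r)}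
    (hS : S ⊆ ball a R) (hSc : ∀ i, a + clu r τ i ∈ S) {U : H →ₗᵢ[ℂ] H} {c : H} {φ : Cm r → Cm r}
    (h : Slide Γ a R S U c φ) (hM : ∀ i, Γ (φ (a + clu r τ i)) = Γ (a + clu r τ i)) {u : Cm r}
    (hu : u ∈ S) : φ u = u ∧ U (Γ u) + c = Γ u := by
  have h1 := hD.chord hτ0 hτ hS hSc h (M := 0) (fun i => by rw [hM i, sub_self, norm_zero]) hu
  rw [mul_zero] at h1
  have h2 : φ u = u := sub_eq_zero.1 (norm_le_zero_iff.1 h1)
  exact ⟨h2, by rw [h.eq u hu, h2]⟩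

/-- the slidings are holomorphic -/
theorem Slide.differentiableAt [CompleteSpace H] (hD : Disc Γ a L R δ κ) {S : Set (Cm r)}
    (hSo : IsOpen S) (hS : S ⊆ ball a R) {U : H →ₗᵢ[ℂ] H} {c : H} {φ : Cm r → Cm r}
    (h : Slide Γ a R S U c φ) {u : Cm r} (hu : u ∈ S) : DifferentiableAt ℂ φ u := by
  classical
  -- continuity
  have hcont : ContinuousAt φ u := by
    have hΓ : ContinuousAt Γ u := (hD.an u (hS hu)).continuousAt
    rw [ContinuousAt, tendsto_iff_norm_sub_tendsto_zero]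
    have h1 : Tendsto (fun u' => 2 / κ * ‖Γ u' - Γ u‖) (𝓝 u) (𝓝 0) := by
      have := (tendsto_iff_norm_sub_tendsto_zero.1 hΓ.tendsto).const_mul (2 / κ)
      simpa using this
    refine squeeze_zero' (Eventually.of_forall fun _ => norm_nonneg _) ?_ h1
    filter_upwards [hSo.mem_nhds hu] with u' hu'
    have := hD.anti (h.maps u' hu') (h.maps u hu)
    rwa [h.norm_eq hu' hu] at this
  set P : H →L[ℂ] Cm r :=
    ContinuousLinearMap.pi fun j => innerSL ℂ (L (Pi.single j 1)) with hP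
  have hPa : ∀ x j, P x j = inner ℂ (L (Pi.single j 1)) x := fun x j => rfl
  have hx0 : φ u ∈ ball a R := h.maps u hu
  have hinj : Function.Injective (P ∘L fderiv ℂ Γ (φ u)) := by
    rw [injective_iff_map_eq_zero]
    intro v hv
    by_contra hv0
    have h0 : 0 < ‖v‖ := norm_pos_iff.2 hv0
    set w := fderiv ℂ Γ (φ u) v with hw
    have h1 : ∀ j, inner ℂ (L (Pi.single j 1)) w = 0 := fun j => by
      rw [← hPa]
      exact congrFun hv j
    have hLv : L v = ∑ j, v j • L (Pi.single j 1) := by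
      conv_lhs => rw [pi_eq_sum_univ' v]
      rw [map_sum]
      refine Finset.sum_congr rfl fun j _ => ?_
      rw [map_smul]
    have h2 : inner ℂ (L v) w = 0 := by
      rw [hLv, sum_inner]
      refine Finset.sum_eq_zero fun j _ => ?_
      rw [inner_smul_left, h1 j, mul_zero]
    have h3 : ‖L v‖ ^ 2 ≤ ‖L v‖ * (δ * ‖v‖) := by
      have e : ((‖L v‖ ^ 2 : ℝ) : ℂ) = - inner ℂ (L v) (w - L v) := by
        rw [inner_sub_right, h2, zero_sub, neg_neg, inner_self_eq_norm_sq_to_K]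
        norm_cast
      have e2 : ‖L v‖ ^ 2 = ‖((‖L v‖ ^ 2 : ℝ) : ℂ)‖ := by
        rw [Complex.norm_real, Real.norm_of_nonneg (by positivity)]
      rw [e2, e, norm_neg]
      refine (norm_inner_le_norm _ _).trans ?_
      gcongr
      exact hD.fderiv_sub hx0 v
    have h4 : 0 < ‖L v‖ := (mul_pos hD.κ_pos h0).trans_le (hD.low v)
    have h5 : ‖L v‖ ≤ δ * ‖v‖ := by
      have : ‖L v‖ * ‖L v‖ ≤ ‖L v‖ * (δ * ‖v‖) := by rw [← sq]; exact h3
      exact le_of_mul_le_mul_left this h4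
    have h6 := hD.low v
    have h7 := hD.δ_half h0
    have h8 : δ * ‖v‖ ≤ κ / 2 * ‖v‖ := by gcongr
    have h9 := mul_pos hD.κ_pos h0
    linarith
  set f' : Cm r ≃L[ℂ] Cm r := (LinearEquiv.ofInjectiveEndo
    ((P ∘L fderiv ℂ Γ (φ u) : Cm r →L[ℂ] Cm r) : Cm r →ₗ[ℂ] Cm r) hinj).toContinuousLinearEquiv
    with hf'
  have hstr : HasStrictFDerivAt (fun x => P (Γ x)) (f' : Cm r →L[ℂ] Cm r) (φ u) := by
    have h1 : HasStrictFDerivAt (fun x => P (Γ x)) (P ∘L fderiv ℂ Γ (φ u)) (φ u) :=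
      P.hasStrictFDerivAt.comp (φ u) (hD.an _ hx0).hasStrictFDerivAt
    have h2 : (f' : Cm r →L[ℂ] Cm r) = P ∘L fderiv ℂ Γ (φ u) :=
      ContinuousLinearMap.ext fun v => rfl
    rw [h2]
    exact h1
  have hg := hstr.eventually_left_inverse
  have hgd : DifferentiableAt ℂ (hstr.localInverse _ _ _) (P (Γ (φ u))) :=
    hstr.to_localInverse.differentiableAt
  have hev : φ =ᶠ[𝓝 u] fun u' => hstr.localInverse _ _ _ (P (U (Γ u') + c)) := by
    filter_upwards [hcont.tendsto.eventually hg, hSo.mem_nhds hu] with u' h1 h2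
    rw [h.eq u' h2]
    exact h1.symm
  refine DifferentiableAt.congr_of_eventuallyEq ?_ hev
  have h1 : DifferentiableAt ℂ (fun u' => P (U (Γ u') + c)) u := by
    refine P.differentiableAt.comp u ?_
    refine DifferentiableAt.add_const _ ?_
    exact (U.toContinuousLinearMap.differentiableAt).comp u (hD.an u (hS hu)).differentiableAt
  refine DifferentiableAt.comp (g := hstr.localInverse _ _ _) u ?_ h1
  rw [h.eq u hu]
  exact hgd

end

section limit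

open Vale.Agent.P299.H720

/-- pointwise convergence and local boundedness imply locally uniform convergence -/
lemma tlu_of_ptwise {ι E F : Type*} [NormedAddCommGroup E] [NormedSpace ℂ E]
    [NormedAddCommGroup F] [NormedSpace ℂ F] {l : Filter ι} [l.NeBot] {f : ι → E → F} {g : E → F}
    {U : Set E} (hf : LocBdd l f U)
    (hp : ∀ x ∈ U, ∀ᶠ y in 𝓝 x, Tendsto (fun j => f j y) l (𝓝 (g y))) :
    TendstoLocallyUniformlyOn f g l U := by
  rw [Metric.tendstoLocallyUniformlyOn_iff]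
  intro ε hε x hx
  obtain ⟨r, hr, C, hC⟩ := hf x hx
  obtain ⟨r', hr', hp'⟩ := Metric.eventually_nhds_iff_ball.1 (hp x hx)
  set K : ℝ := max (4 * C / r) 1 with hK
  have hK0 : 0 < K := lt_of_lt_of_le one_pos (le_max_right _ _)
  set s : ℝ := min (min (r / 4) r') (ε / (3 * K)) with hs
  have hs0 : 0 < s := by positivity
  have hs1 : s ≤ r / 4 := (min_le_left _ _).trans (min_le_left _ _)
  have hs2 : s ≤ r' := (min_le_left _ _).trans (min_le_right _ _)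
  have hs3 : K * s ≤ ε / 3 := by
    have : s ≤ ε / (3 * K) := min_le_right _ _
    calc K * s ≤ K * (ε / (3 * K)) := by gcongr
      _ = ε / 3 := by field_simp
  have hlip : ∀ᶠ j in l, ∀ y ∈ ball x s, dist (f j y) (f j x) ≤ ε / 3 := by
    filter_upwards [hC] with j hj y hy
    have h1 := lip_of_bdd hr hj.1 hj.2 (y := x) (z := y) (mem_ball_self (by positivity))
      (ball_subset_ball hs1 hy)
    refine h1.trans ?_
    have h2 : dist y x ≤ s := (mem_ball.1 hy).le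
    calc 4 * C / r * dist y x ≤ K * dist y x := by
          gcongr; exact le_max_left _ _
      _ ≤ K * s := by gcongr
      _ ≤ _ := hs3
  have hx' : Tendsto (fun j => f j x) l (𝓝 (g x)) := hp' x (mem_ball_self hr')
  have hg : ∀ y ∈ ball x s, dist (g y) (g x) ≤ ε / 3 := by
    intro y hy
    have h1 : Tendsto (fun j => dist (f j y) (f j x)) l (𝓝 (dist (g y) (g x))) :=
      (hp' y (ball_subset_ball hs2 hy)).dist hx'
    exact le_of_tendsto h1 (hlip.mono fun j hj => hj y hy)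
  refine ⟨ball x s, mem_nhdsWithin_of_mem_nhds (ball_mem_nhds x hs0), ?_⟩
  filter_upwards [hlip, (tendsto_iff_dist_tendsto_zero.1 hx').eventually
    (gt_mem_nhds (show 0 < ε / 3 by positivity))] with j h1 h2 y hy
  have h3 := h1 y hy
  have h4 := hg y hy
  have h5 := dist_triangle (g y) (g x) (f j x)
  have h6 := dist_triangle (g y) (f j x) (f j y)
  rw [dist_comm (g x) (f j x)] at h5
  rw [dist_comm (f j x) (f j y)] at h6
  linarith

variable {Γ : Cm r → H} {a : Cm r} {L : Cm r →L[ℂ] H} {R δ κ : ℝ} [CompleteSpace H]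
  {ι : Type*} {U : ι → H →ₗᵢ[ℂ] H} {c : ι → H} {φ : ι → Cm r → Cm r} {M : ι → ℝ}
  {τ ρ : ℝ}

/-- **normalised limits** -/
theorem Disc.limit (hD : Disc Γ a L R δ κ) (hτ0 : 0 < τ) (hτ : τ < ρ) (hρ : ρ ≤ R)
    (𝒰 : Ultrafilter ι) (h : ∀ᶠ n in (𝒰 : Filter ι), Slide Γ a R (ball a ρ) (U n) (c n) (φ n))
    (hM0 : ∀ᶠ n in (𝒰 : Filter ι), 0 < M n) (hMt : Tendsto M 𝒰 (𝓝 0))
    (hM : ∀ᶠ n in (𝒰 : Filter ι), ∀ i, ‖Γ (φ n (a + clu r τ i)) - Γ (a + clu r τ i)‖ ≤ M n) :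
    ∃ ζ : Cm r → Cm r, DifferentiableOn ℂ ζ (ball a ρ) ∧
      TendstoLocallyUniformlyOn (fun n u => ((M n : ℂ))⁻¹ • (φ n u - u)) ζ 𝒰 (ball a ρ) ∧
      TendstoLocallyUniformlyOn (fun n u => ((M n : ℂ))⁻¹ • (U n (Γ u) + c n - Γ u))
        (fun u => fderiv ℂ Γ u (ζ u)) 𝒰 (ball a ρ) ∧
      (∀ u ∈ ball a ρ, ∀ v, Tendsto (fun n => ((M n : ℂ))⁻¹ •
        (U n (fderiv ℂ Γ u v) - fderiv ℂ Γ u v)) 𝒰
        (𝓝 (fderiv ℂ (fun u => fderiv ℂ Γ u (ζ u)) u v))) ∧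
      (∀ u ∈ ball a ρ, ∀ u' ∈ ball a ρ, ∀ b ∈ ball a ρ, ∀ b' ∈ ball a ρ,
        inner ℂ (fderiv ℂ Γ u (ζ u) - fderiv ℂ Γ u' (ζ u')) (Γ b - Γ b') +
          inner ℂ (Γ u - Γ u') (fderiv ℂ Γ b (ζ b) - fderiv ℂ Γ b' (ζ b')) = 0) ∧
      ((∀ᶠ n in (𝒰 : Filter ι), ∃ i, ‖Γ (φ n (a + clu r τ i)) - Γ (a + clu r τ i)‖ = M n) →
        ∃ i, ‖fderiv ℂ Γ (a + clu r τ i) (ζ (a + clu r τ i))‖ = 1) := by
  classical
  have hρ0 : 0 < ρ := hτ0.trans hτ
  have hτR : τ < R := hτ.trans_le hρ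
  have hsub : ball a ρ ⊆ ball a R := ball_subset_ball hρ
  have hmem : ∀ i, a + clu r τ i ∈ ball a ρ := fun i => Disc.clu_mem a hτ0 hτ i
  set K : ℝ := Disc.C r L R κ τ with hK
  have hK0 : 0 ≤ K := hD.C_nonneg hτ0
  -- bounds
  have hφb : ∀ᶠ n in (𝒰 : Filter ι), ∀ u ∈ ball a ρ, ‖φ n u - u‖ ≤ K * M n := by
    filter_upwards [h, hM] with n hn hMn u hu
    exact hD.chord hτ0 hτR hsub hmem hn hMn hu
  have hnorm : ∀ᶠ n in (𝒰 : Filter ι), ‖((M n : ℂ))⁻¹‖ = (M n)⁻¹ := by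
    filter_upwards [hM0] with n hn
    rw [norm_inv, Complex.norm_real, Real.norm_of_nonneg hn.le]
  have hLB : LocBdd (𝒰 : Filter ι) (fun n u => ((M n : ℂ))⁻¹ • (φ n u - u)) (ball a ρ) := by
    intro x hx
    obtain ⟨s, hs, hsx⟩ := Metric.isOpen_iff.1 isOpen_ball x hx
    refine ⟨s, hs, K, ?_⟩
    filter_upwards [h, hφb, hnorm, hM0] with n hn hb hnn hM0n
    refine ⟨fun y hy => ?_, fun y hy => ?_⟩
    · have := Slide.differentiableAt hD isOpen_ball hsub hn (hsx hy)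
      exact (DifferentiableAt.const_smul (this.sub differentiableAt_id)
        ((M n : ℂ))⁻¹).differentiableWithinAt
    · rw [norm_smul, hnn, inv_mul_le_iff₀ hM0n, mul_comm]
      exact hb y (hsx hy)
  obtain ⟨ζ, hζd, hζ, -⟩ := montel_full 𝒰 isOpen_ball hLB
  have hζp : ∀ u ∈ ball a ρ, Tendsto (fun n => ((M n : ℂ))⁻¹ • (φ n u - u)) 𝒰 (𝓝 (ζ u)) :=
    fun u hu => hζ.tendsto_at hu
  -- pointwise convergence of the `H`-valued fields
  have hdl : ∀ u ∈ ball a ρ, Tendsto (fun n => φ n u - u) 𝒰 (𝓝 0) := by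
    intro u hu
    have h1 : Tendsto (fun n => K * M n) 𝒰 (𝓝 0) := by simpa using hMt.const_mul K
    exact squeeze_zero_norm' (hφb.mono fun n hn => hn u hu) h1
  have hZp : ∀ u ∈ ball a ρ, Tendsto (fun n => ((M n : ℂ))⁻¹ • (U n (Γ u) + c n - Γ u)) 𝒰
      (𝓝 (fderiv ℂ Γ u (ζ u))) := by
    intro u hu
    have h1 : HasFDerivWithinAt Γ (fderiv ℂ Γ u) univ u :=
      (hD.an u (hsub hu)).differentiableAt.hasFDerivAt.hasFDerivWithinAt
    have h2 := h1.lim (l := (𝒰 : Filter ι)) (c := fun n => ((M n : ℂ))⁻¹)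
      (d := fun n => φ n u - u) (v := ζ u) (hdl u hu) (Eventually.of_forall fun _ => mem_univ _)
      (hζp u hu)
    refine h2.congr' ?_
    filter_upwards [h] with n hn
    rw [add_sub_cancel, hn.eq u hu]
  have hZLB : LocBdd (𝒰 : Filter ι) (fun n u => ((M n : ℂ))⁻¹ • (U n (Γ u) + c n - Γ u))
      (ball a ρ) := by
    intro x hx
    obtain ⟨s, hs, hsx⟩ := Metric.isOpen_iff.1 isOpen_ball x hx
    refine ⟨s, hs, (‖L‖ + 1) * K, ?_⟩
    filter_upwards [h, hφb, hnorm, hM0] with n hn hb hnn hM0n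
    refine ⟨fun y hy => ?_, fun y hy => ?_⟩
    · have hΓd : DifferentiableAt ℂ Γ y := (hD.an y (hsub (hsx hy))).differentiableAt
      have h1 : DifferentiableAt ℂ (fun u => U n (Γ u)) y :=
        ((U n).toContinuousLinearMap.differentiableAt).comp y hΓd
      exact (DifferentiableAt.const_smul ((h1.add_const _).sub hΓd)
        ((M n : ℂ))⁻¹).differentiableWithinAt
    · rw [norm_smul, hnn, inv_mul_le_iff₀ hM0n, hn.eq y (hsx hy)]
      calc ‖Γ (φ n y) - Γ y‖ ≤ (‖L‖ + 1) * ‖φ n y - y‖ :=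
            hD.lips (hn.maps y (hsx hy)) (hsub (hsx hy))
        _ ≤ (‖L‖ + 1) * (K * M n) := by gcongr; exact hb y (hsx hy)
        _ = M n * ((‖L‖ + 1) * K) := by ring
  have hZ : TendstoLocallyUniformlyOn (fun n u => ((M n : ℂ))⁻¹ • (U n (Γ u) + c n - Γ u))
      (fun u => fderiv ℂ Γ u (ζ u)) 𝒰 (ball a ρ) := by
    refine tlu_of_ptwise hZLB fun x hx => ?_
    filter_upwards [isOpen_ball.mem_nhds hx] with y hy using hZp y hy
  have hZd : DifferentiableOn ℂ (fun u => fderiv ℂ Γ u (ζ u)) (ball a ρ) := by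
    intro u hu
    have h1 : DifferentiableAt ℂ (fderiv ℂ Γ) u := (hD.an u (hsub hu)).fderiv.differentiableAt
    have h2 : DifferentiableAt ℂ ζ u := hζd.differentiableAt (isOpen_ball.mem_nhds hu)
    exact (h1.clm_apply h2).differentiableWithinAt
  refine ⟨ζ, hζd, hζ, hZ, ?_, ?_, ?_⟩
  · -- derivatives
    intro u hu v
    have h1 := montel_fderiv isOpen_ball hZLB hZd hZ hu (u := fun _ => u) tendsto_const_nhds
    have h2 : Tendsto (fun n => fderiv ℂ (fun u => ((M n : ℂ))⁻¹ • (U n (Γ u) + c n - Γ u)) u v)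
        𝒰 (𝓝 (fderiv ℂ (fun u => fderiv ℂ Γ u (ζ u)) u v)) :=
      ((ContinuousLinearMap.apply ℂ H v).continuous.tendsto _).comp h1
    refine h2.congr fun n => ?_
    have hΓd := (hD.an u (hsub hu)).differentiableAt.hasFDerivAt
    have h3 : HasFDerivAt (fun u => U n (Γ u))
        ((U n).toContinuousLinearMap ∘L fderiv ℂ Γ u) u :=
      (U n).toContinuousLinearMap.hasFDerivAt.comp u hΓd
    have h4 := (((h3.add_const (c n)).sub hΓd).const_smul ((M n : ℂ))⁻¹)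
    have h5 : fderiv ℂ (fun u => ((M n : ℂ))⁻¹ • (U n (Γ u) + c n - Γ u)) u =
        ((M n : ℂ))⁻¹ • ((U n).toContinuousLinearMap ∘L fderiv ℂ Γ u - fderiv ℂ Γ u) := h4.fderiv
    rw [h5]
    rfl
  · -- the Killing relation
    intro u hu u' hu' b hb b' hb'
    have h1 : Tendsto (fun n => inner ℂ (((M n : ℂ))⁻¹ • (U n (Γ u) + c n - Γ u) -
        ((M n : ℂ))⁻¹ • (U n (Γ u') + c n - Γ u')) (Γ b - Γ b') +
        inner ℂ (Γ u - Γ u') (((M n : ℂ))⁻¹ • (U n (Γ b) + c n - Γ b) -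
        ((M n : ℂ))⁻¹ • (U n (Γ b') + c n - Γ b'))) 𝒰
        (𝓝 (inner ℂ (fderiv ℂ Γ u (ζ u) - fderiv ℂ Γ u' (ζ u')) (Γ b - Γ b') +
          inner ℂ (Γ u - Γ u') (fderiv ℂ Γ b (ζ b) - fderiv ℂ Γ b' (ζ b')))) :=
      (((hZp u hu).sub (hZp u' hu')).inner tendsto_const_nhds).add
        (tendsto_const_nhds.inner ((hZp b hb).sub (hZp b' hb')))
    have h2 : Tendsto (fun n => -((M n : ℂ) * inner ℂ
        (((M n : ℂ))⁻¹ • (U n (Γ u) + c n - Γ u) - ((M n : ℂ))⁻¹ • (U n (Γ u') + c n - Γ u'))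
        (((M n : ℂ))⁻¹ • (U n (Γ b) + c n - Γ b) - ((M n : ℂ))⁻¹ • (U n (Γ b') + c n - Γ b'))))
        𝒰 (𝓝 (-((0 : ℂ) * inner ℂ (fderiv ℂ Γ u (ζ u) - fderiv ℂ Γ u' (ζ u'))
          (fderiv ℂ Γ b (ζ b) - fderiv ℂ Γ b' (ζ b'))))) := by
      have h3 : Tendsto (fun n => (M n : ℂ)) 𝒰 (𝓝 0) := by
        have := (Complex.continuous_ofReal.tendsto 0).comp hMt
        simpa [Function.comp_def] using this
      exact (h3.mul (((hZp u hu).sub (hZp u' hu')).inner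
        ((hZp b hb).sub (hZp b' hb')))).neg
    rw [zero_mul, neg_zero] at h2
    refine tendsto_nhds_unique h1 (h2.congr' ?_)
    filter_upwards [hM0] with n hn
    have hMc : (M n : ℂ) ≠ 0 := by exact_mod_cast hn.ne'
    set m : ℂ := (M n : ℂ) with hm
    have hcm : (starRingEnd ℂ) m = m := Complex.conj_ofReal _
    set x := Γ u - Γ u' with hx
    set y := Γ b - Γ b' with hy
    have e1 : m⁻¹ • (U n (Γ u) + c n - Γ u) - m⁻¹ • (U n (Γ u') + c n - Γ u') =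
        m⁻¹ • (U n x - x) := by
      rw [← smul_sub, hx, map_sub]; congr 1; abel
    have e2 : m⁻¹ • (U n (Γ b) + c n - Γ b) - m⁻¹ • (U n (Γ b') + c n - Γ b') =
        m⁻¹ • (U n y - y) := by
      rw [← smul_sub, hy, map_sub]; congr 1; abel
    rw [e1, e2]
    simp only [inner_smul_left, inner_smul_right, map_inv₀, hcm, inner_sub_left, inner_sub_right,
      LinearIsometry.inner_map_map]
    field_simp
    ring
  · intro hmax
    by_contra hcon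
    push Not at hcon
    have h1 : ∀ i, ∀ᶠ n in (𝒰 : Filter ι),
        ‖((M n : ℂ))⁻¹ • (U n (Γ (a + clu r τ i)) + c n - Γ (a + clu r τ i))‖ ≠ 1 := fun i =>
      (hZp _ (hmem i)).norm.eventually_ne (hcon i)
    have h2 := eventually_all.2 h1
    obtain ⟨n, hn1, ⟨i, hi⟩, hn3, hn4, hn5⟩ := (h2.and (hmax.and (hnorm.and (hM0.and h)))).exists
    refine hn1 i ?_
    rw [norm_smul, hn3, hn5.eq _ (hmem i), hi, inv_mul_cancel₀ hn4.ne']

omit [CompleteSpace H] in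
/-- **determinacy**: a Killing field which vanishes on the cluster is zero -/
theorem Disc.determ (hD : Disc Γ a L R δ κ) (hτ0 : 0 < τ) (hτ : τ < R) {S : Set (Cm r)}
    (hS : S ⊆ ball a R) (hSc : ∀ i, a + clu r τ i ∈ S) {ζ : Cm r → Cm r}
    (hK : ∀ u ∈ S, ∀ u' ∈ S, (inner ℂ (fderiv ℂ Γ u (ζ u) - fderiv ℂ Γ u' (ζ u'))
      (Γ u - Γ u')).re = 0) (h0 : ∀ i, ζ (a + clu r τ i) = 0) {u : Cm r} (hu : u ∈ S) :
    ζ u = 0 := by
  have ha : a + clu r τ none = a := by simp [clu]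
  have h1 : ∀ i, (inner ℂ (fderiv ℂ Γ u (ζ u)) (Γ u - Γ (a + clu r τ i))).re = 0 := by
    intro i
    have := hK u hu _ (hSc i)
    rwa [h0 i, map_zero, sub_zero] at this
  have h2 : ∀ i, (inner ℂ (fderiv ℂ Γ u (ζ u)) (Γ (a + clu r τ i) - Γ a)).re = 0 := by
    intro i
    have e : Γ (a + clu r τ i) - Γ a = (Γ u - Γ (a + clu r τ none)) -
        (Γ u - Γ (a + clu r τ i)) := by rw [ha]; abel
    rw [e, inner_sub_right, Complex.sub_re, h1, h1, sub_zero]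
  have h3 := hD.inf hτ0 hτ (hS hu) (v := ζ u) (le_refl (0 : ℝ)) (fun i => by rw [h2 i, abs_zero])
  rw [mul_zero] at h3
  exact norm_le_zero_iff.1 h3

/-- the real vector space of the Killing fields on `S` -/
def kill (Γ : Cm r → H) (S : Set (Cm r)) : Submodule ℝ (Cm r → Cm r) where
  carrier := {ζ | (∀ u ∉ S, ζ u = 0) ∧ ∀ u ∈ S, ∀ u' ∈ S,
    (inner ℂ (fderiv ℂ Γ u (ζ u) - fderiv ℂ Γ u' (ζ u')) (Γ u - Γ u')).re = 0}
  add_mem' := by
    rintro ζ ζ' ⟨h1, h2⟩ ⟨h1', h2'⟩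
    refine ⟨fun u hu => by simp [h1 u hu, h1' u hu], fun u hu u' hu' => ?_⟩
    have e : fderiv ℂ Γ u ((ζ + ζ') u) - fderiv ℂ Γ u' ((ζ + ζ') u') =
        (fderiv ℂ Γ u (ζ u) - fderiv ℂ Γ u' (ζ u')) +
          (fderiv ℂ Γ u (ζ' u) - fderiv ℂ Γ u' (ζ' u')) := by
      simp only [Pi.add_apply, map_add]; abel
    rw [e, inner_add_left, Complex.add_re, h2 u hu u' hu', h2' u hu u' hu', add_zero]
  zero_mem' := ⟨fun u _ => rfl, fun u _ u' _ => by simp⟩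
  smul_mem' := by
    rintro t ζ ⟨h1, h2⟩
    refine ⟨fun u hu => by simp [h1 u hu], fun u hu u' hu' => ?_⟩
    have e : fderiv ℂ Γ u ((t • ζ) u) - fderiv ℂ Γ u' ((t • ζ) u') =
        (t : ℂ) • (fderiv ℂ Γ u (ζ u) - fderiv ℂ Γ u' (ζ u')) := by
      have e1 : ∀ w, (t • ζ) w = (t : ℂ) • ζ w := fun w => by ext j; simp
      rw [e1, e1, map_smul, map_smul, smul_sub]
    rw [e, inner_smul_left, Complex.conj_ofReal, Complex.re_ofReal_mul, h2 u hu u' hu', mul_zero]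

omit [CompleteSpace H] in
/-- it is finite dimensional -/
theorem Disc.finiteDimensional_kill (hD : Disc Γ a L R δ κ) (hτ0 : 0 < τ) (hτ : τ < R)
    {S : Set (Cm r)} (hS : S ⊆ ball a R) (hSc : ∀ i, a + clu r τ i ∈ S) :
    FiniteDimensional ℝ (kill Γ S) := by
  let f : kill Γ S →ₗ[ℝ] (Option (Fin r × Bool) → Cm r) :=
    { toFun := fun ζ i => ζ.1 (a + clu r τ i)
      map_add' := fun _ _ => rfl
      map_smul' := fun _ _ => rfl }
  refine FiniteDimensional.of_injective f ?_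
  rw [injective_iff_map_eq_zero]
  intro ζ hζ
  apply Subtype.ext
  funext u
  by_cases hu : u ∈ S
  · exact hD.determ hτ0 hτ hS hSc ζ.2.2 (fun i => congrFun hζ i) hu
  · exact ζ.2.1 u hu

end limit

section triv

variable {Γ : Cm r → H} {a : Cm r} {R : ℝ}

/-- if `U Γ + c = Γ` on `S` then `U = 1` on the closed span of the chords of `Γ(S)` -/
theorem eq_on_span {S : Set (Cm r)} {U : H →ₗᵢ[ℂ] H} {c : H} (h : ∀ u ∈ S, U (Γ u) + c = Γ u)
    {x : H} (hx : x ∈ (Submodule.span ℂ {y | ∃ u ∈ S, ∃ u' ∈ S, y = Γ u - Γ u'}).topologicalClosure) :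
    U x = x := by
  have hcl : IsClosed {x : H | U x = x} := isClosed_eq U.continuous continuous_id
  have hsub : ((Submodule.span ℂ {y | ∃ u ∈ S, ∃ u' ∈ S, y = Γ u - Γ u'} : Submodule ℂ H) :
      Set H) ⊆ {x | U x = x} := by
    intro y hy
    refine Submodule.span_induction (p := fun y _ => U y = y) ?_ ?_ ?_ ?_ hy
    · rintro _ ⟨u, hu, u', hu', rfl⟩
      have h1 := h u hu
      have h2 := h u' hu'
      rw [map_sub]
      have : U (Γ u) - U (Γ u') = (U (Γ u) + c) - (U (Γ u') + c) := by abel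
      rw [this, h1, h2]
    · exact map_zero U
    · intro x y _ _ hx hy
      rw [map_add, hx, hy]
    · intro t x _ hx
      rw [map_smul, hx]
  exact closure_minimal hsub hcl hx

/-- a sliding from `V (S) ⊆ Γ (ball)` -/
lemma exists_slide {S : Set (Cm r)} {U : H →ₗᵢ[ℂ] H} {c : H}
    (h : ∀ u ∈ S, U (Γ u) + c ∈ Γ '' ball a R) : ∃ φ, Slide Γ a R S U c φ := by
  classical
  choose! φ h1 h2 using h
  exact ⟨φ, h1, fun u hu => (h2 u hu).symm⟩

end triv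

end Vale.Agent.P284.H212
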