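import Vale.Agent.P284.H212.NI
import Vale.Agent.P284.H395.StkS

/-!
# P284 (helper212), module C: propagation of near-identity sheet maps over the good set
-/

open scoped Topology ContDiff
open Filter Set Metric

noncomputable section

namespace Vale.Agent.P284.H212

open Vale.Agent.P272.K Vale.Agent.P284.H573 Vale.Agent.P284.H395

variable {n R q s : ℕ} {X : Type} [TopologicalSpace X] [ChartedSpace (Cm n) X] {E : Type}
  [TopologicalSpace E] {H : Type} [NormedAddCommGroup H] [InnerProductSpace ℂ H]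

/-- `x` spans the line of `v` at `y` -/
def OnL (p : E → X) (v : E → Chart n X → (Fin R → Cm n) → H) (y : E) (x : H) : Prop :=
  x ≠ 0 ∧ ∀ e : Chart n X, At e (p y) → ∀ ξ, ∃ a : ℂ, v y e ξ = a • x

/-- a chart `β` of the leaf space near `z`: `[v] = [γ β]`, `F = τ β` modulo the kernel of `T`. -/
structure LCh (p : E → X) (v : E → Chart n X → (Fin R → Cm n) → H) (F : E → Cm q)
    (T : Cm q →L[ℂ] Cm q) (z : E) (β : E → Cm s) (γ : Cm s → H) (τ : Cm s → Cm q) : Prop where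
  γan : AnalyticAt ℂ γ (β z)
  imm : ImmAt γ (β z)
  τan : AnalyticAt ℂ τ (β z)
  ev : ∀ᶠ y in 𝓝 z, ContinuousAt β y ∧ 𝓝 (β y) ≤ map β (𝓝 y) ∧ NZ p v y ∧ OnL p v y (γ (β y)) ∧
    T (F y - τ (β y)) = 0

section
variable {p : E → X} {v : E → Chart n X → (Fin R → Cm n) → H} {F : E → Cm q}
  {T : Cm q →L[ℂ] Cm q} {z : E} {β β' : E → Cm s} {γ γ' : Cm s → H} {τ τ' : Cm s → Cm q}

omit [TopologicalSpace E] in
lemma OnL.prop {y : E} {x x' : H} (hz : NZ p v y) (h : OnL p v y x) (h' : OnL p v y x') :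
    ∃ a : ℂ, a ≠ 0 ∧ x' = a • x := by
  obtain ⟨e, he, ξ, hξ⟩ := hz
  obtain ⟨a, ha⟩ := h.2 e he ξ
  obtain ⟨a', ha'⟩ := h'.2 e he ξ
  have h1 : a ≠ 0 := by rintro rfl; exact hξ (by rw [ha, zero_smul])
  have h2 : a' ≠ 0 := by rintro rfl; exact hξ (by rw [ha', zero_smul])
  refine ⟨a'⁻¹ * a, mul_ne_zero (inv_ne_zero h2) h1, ?_⟩
  rw [mul_smul, ← ha, ha', smul_smul, inv_mul_cancel₀ h2, one_smul]

omit [TopologicalSpace E] in
/-- the line is spanned by a value of `v` -/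
lemma OnL.exists_val {y : E} {x : H} (hz : NZ p v y) (h : OnL p v y x) :
    ∃ (e : Chart n X) (ξ : Fin R → Cm n) (a : ℂ), At e (p y) ∧ a ≠ 0 ∧ x = a • v y e ξ := by
  obtain ⟨e, he, ξ, hξ⟩ := hz
  obtain ⟨a, ha⟩ := h.2 e he ξ
  have h1 : a ≠ 0 := by rintro rfl; exact hξ (by rw [ha, zero_smul])
  exact ⟨e, ξ, a⁻¹, he, inv_ne_zero h1, by rw [ha, smul_smul, inv_mul_cancel₀ h1, one_smul]⟩

variable {ι : Type} {l : Filter ι} {U : ι → H →ₗᵢ[ℂ] H} {c : ι → Cm q}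

/-- transfer of the relation between two charts at the same point -/
theorem transfer {b₀ : Cm s} (C : PC γ b₀) {z₁ : E}
    (h : ∀ᶠ y in 𝓝 z₁, ContinuousAt β y ∧ 𝓝 (β y) ≤ map β (𝓝 y) ∧ NZ p v y ∧
      OnL p v y (γ (β y)) ∧ T (F y - τ (β y)) = 0) (hb : β z₁ ∈ ball b₀ C.r₁)
    (h' : LCh p v F T z₁ β' γ' τ') (hNI : NI γ' τ' T l U c (β' z₁)) :
    WNI C τ T l U c (β z₁) := by
  obtain ⟨r', hr', φ', h1, h2⟩ := hNI
  have hβc : ContinuousAt β z₁ := h.self_of_nhds.1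
  have hβ'c : ContinuousAt β' z₁ := h'.ev.self_of_nhds.1
  have hO : ∀ᶠ y in 𝓝 z₁, ((ContinuousAt β y ∧ 𝓝 (β y) ≤ map β (𝓝 y) ∧ NZ p v y ∧
      OnL p v y (γ (β y)) ∧ T (F y - τ (β y)) = 0) ∧ (ContinuousAt β' y ∧ 𝓝 (β' y) ≤ map β' (𝓝 y) ∧
      NZ p v y ∧ OnL p v y (γ' (β' y)) ∧ T (F y - τ' (β' y)) = 0)) ∧ β y ∈ ball b₀ C.r₁ :=
    (h.and h'.ev).and (hβc.eventually (isOpen_ball.mem_nhds hb))
  obtain ⟨ε, hε, hεb⟩ := Metric.mem_nhds_iff.1 (h'.ev.self_of_nhds.2.1 (image_mem_map hO))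
  filter_upwards [h1, h2 (ε / 2) (half_pos hε)] with m hm1 hm2
  refine Filter.Eventually.filter_mono h.self_of_nhds.2.1 (eventually_map.2 ?_)
  have hβ'b : ∀ᶠ y in 𝓝 z₁, β' y ∈ ball (β' z₁) (min r' (ε / 2)) :=
    hβ'c.eventually (ball_mem_nhds _ (by positivity))
  filter_upwards [hO, hβ'b] with y hy hyb
  obtain ⟨-, ⟨a', ha', h3⟩, h4⟩ := hm1 (β' y) (ball_subset_ball (min_le_left _ _) hyb)
  have h5 := hm2 (β' y) (ball_subset_ball (min_le_left _ _) hyb)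
  have h6 : φ' m (β' y) ∈ ball (β' z₁) ε := by
    have h7 : dist (β' y) (β' z₁) < ε / 2 := lt_of_lt_of_le (mem_ball.1 hyb) (min_le_right _ _)
    rw [mem_ball]
    calc dist (φ' m (β' y)) (β' z₁) ≤ dist (φ' m (β' y)) (β' y) + dist (β' y) (β' z₁) :=
          dist_triangle _ _ _
      _ < ε := by rw [dist_eq_norm]; linarith
  obtain ⟨y'', hy'', hyy⟩ := hεb h6
  obtain ⟨a1, ha1, e1⟩ := OnL.prop hy.1.1.2.2.1 hy.1.2.2.2.2.1 hy.1.1.2.2.2.1
  obtain ⟨a2, ha2, e2⟩ := OnL.prop hy''.1.1.2.2.1 hy''.1.1.2.2.2.1 hy''.1.2.2.2.2.1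
  refine ⟨β y'', hy''.2, ⟨a1 * (a' * a2), mul_ne_zero ha1 (mul_ne_zero ha' ha2), ?_⟩, ?_⟩
  · rw [e1, map_smul, h3, ← hyy, e2, smul_smul, smul_smul]
    ring_nf
  · have t1 := hy.1.1.2.2.2.2
    have t2 := hy.1.2.2.2.2.2
    have t3 := hy''.1.1.2.2.2.2
    have t4 := hy''.1.2.2.2.2.2
    rw [← hyy] at h4
    rw [map_sub, sub_eq_zero] at t1 t2 t3 t4
    rw [map_sub, map_sub] at h4 ⊢
    rw [← t3, ← t1, t4, t2]
    exact h4

/-- the constants at a leaf chart -/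
theorem LCh.setup [CompleteSpace H] (h : LCh p v F T z β γ τ) :
    ∃ (C : PC γ (β z)) (r : ℝ), 0 < r ∧ r < C.r₁ ∧ (∀ b ∈ ball (β z) C.R, AnalyticAt ℂ τ b) ∧
      ∀ b ∈ closedBall (β z) r, ∃ y, NZ p v y ∧ OnL p v y (γ b) := by
  obtain ⟨R₀, hR₀, hτ⟩ := Metric.eventually_nhds_iff_ball.1 h.τan.eventually_analyticAt
  obtain ⟨C, hC⟩ := exists_pc h.γan h.imm hR₀
  obtain ⟨ε, hε, hεb⟩ := Metric.mem_nhds_iff.1 (h.ev.self_of_nhds.2.1 (image_mem_map h.ev))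
  refine ⟨C, min (C.r₁ / 2) (ε / 2), lt_min (half_pos C.r₁_pos) (half_pos hε),
    lt_of_le_of_lt (min_le_left _ _) (half_lt_self C.r₁_pos),
    fun b hb => hτ b (ball_subset_ball hC hb), fun b hb => ?_⟩
  have hb' : b ∈ ball (β z) ε :=
    closedBall_subset_ball (lt_of_le_of_lt (min_le_right _ _) (half_lt_self hε)) hb
  obtain ⟨y, hy, rfl⟩ := hεb hb'
  exact ⟨y, hy.2.2.1, hy.2.2.2.1⟩

/-- a leaf chart at `z` is a leaf chart at the points near `z` -/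
theorem LCh.near [CompleteSpace H] (h : LCh p v F T z β γ τ) :
    ∀ᶠ z' in 𝓝 z, LCh p v F T z' β γ τ := by
  obtain ⟨C, r, hr, hrC, hτ, -⟩ := h.setup
  have hc : ContinuousAt β z := h.ev.self_of_nhds.1
  filter_upwards [h.ev.eventually_nhds, hc.eventually (ball_mem_nhds _ C.r₁_pos)] with z' h1 h2
  exact ⟨C.γan _ (ball_subset_ball C.r₁_le h2), C.immAt h2, hτ _ (ball_subset_ball C.r₁_le h2), h1⟩

omit [TopologicalSpace E] in
lemma strong_of
    (hU : ∀ y (e : Chart n X), At e (p y) → ∀ ξ, Tendsto (fun m => U m (v y e ξ)) l (𝓝 (v y e ξ)))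
    {y : E} {x : H} (hz : NZ p v y) (h : OnL p v y x) : Tendsto (fun m => U m x) l (𝓝 x) := by
  obtain ⟨e, ξ, a, he, -, hx⟩ := h.exists_val hz
  rw [hx]
  simp only [map_smul]
  exact (hU y e he ξ).const_smul a

/-- at one point: near-identity maps in one chart at `z₁` near `z` give them in the chart at `z`, and
conversely -/
theorem LCh.ni_iff [CompleteSpace H]
    (hU : ∀ y (e : Chart n X), At e (p y) → ∀ ξ, Tendsto (fun m => U m (v y e ξ)) l (𝓝 (v y e ξ)))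
    (h : LCh p v F T z β γ τ) : ∀ᶠ z₁ in 𝓝 z,
      (NI γ τ T l U c (β z) → NI γ τ T l U c (β z₁)) ∧
      ∀ (β' : E → Cm s) (γ' : Cm s → H) (τ' : Cm s → Cm q), LCh p v F T z₁ β' γ' τ' →
        NI γ' τ' T l U c (β' z₁) → NI γ τ T l U c (β z) := by
  obtain ⟨C, r, hr, hrC, hτ, hval⟩ := h.setup
  have hc : ContinuousAt β z := h.ev.self_of_nhds.1
  have hUb : ∀ b ∈ closedBall (β z) r, Tendsto (fun m => U m (γ b)) l (𝓝 (γ b)) := by
    intro b hb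
    obtain ⟨y, hy1, hy2⟩ := hval b hb
    exact strong_of hU hy1 hy2
  filter_upwards [h.ev.eventually_nhds, hc.eventually (ball_mem_nhds _ hr)] with z₁ h1 h2
  constructor
  · intro hNI
    -- the relation at the centre gives the relation on the ball
    have hw : WNI C τ T l U c (β z) := transfer C h.ev (mem_ball_self C.r₁_pos) h hNI
    exact ni_of_weak C hτ hrC hUb (mem_ball_self hr) hw h2
  · intro β' γ' τ' h' hNI
    have hw : WNI C τ T l U c (β z₁) := transfer C h1 (ball_subset_ball hrC.le h2) h' hNI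
    exact ni_of_weak C hτ hrC hUb h2 hw (mem_ball_self hr)

/-- **propagation**: near-identity sheet maps at one good point give them at all good points, in all
charts -/
theorem ni_prop [CompleteSpace H]
    (hU : ∀ y (e : Chart n X), At e (p y) → ∀ ξ, Tendsto (fun m => U m (v y e ξ)) l (𝓝 (v y e ξ)))
    {𝒢 : Set E} (h𝒢 : IsPreconnected 𝒢)
    (hch : ∀ z ∈ 𝒢, ∃ (β : E → Cm s) (γ : Cm s → H) (τ : Cm s → Cm q), LCh p v F T z β γ τ)
    {z₀ : E} (hz₀ : z₀ ∈ 𝒢) (h₀ : ∃ (β : E → Cm s) (γ : Cm s → H) (τ : Cm s → Cm q),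
      LCh p v F T z₀ β γ τ ∧ NI γ τ T l U c (β z₀))
    {z : E} (hz : z ∈ 𝒢) (h : LCh p v F T z β γ τ) : NI γ τ T l U c (β z) := by
  -- all charts at one point are equivalent
  have hall : ∀ {z : E} {β β' : E → Cm s} {γ γ' : Cm s → H} {τ τ' : Cm s → Cm q},
      LCh p v F T z β γ τ → LCh p v F T z β' γ' τ' → NI γ' τ' T l U c (β' z) →
      NI γ τ T l U c (β z) := by
    intro z β β' γ γ' τ τ' h h' hNI
    exact (LCh.ni_iff hU h).self_of_nhds.2 β' γ' τ' h' hNI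
  have key := h𝒢.induction₂' (P := fun x y => (∀ (β : E → Cm s) (γ : Cm s → H) (τ : Cm s → Cm q),
      LCh p v F T x β γ τ → NI γ τ T l U c (β x)) → ∀ (β : E → Cm s) (γ : Cm s → H)
      (τ : Cm s → Cm q), LCh p v F T y β γ τ → NI γ τ T l U c (β y)) ?_ ?_ hz₀ hz
  · refine key ?_ β γ τ h
    intro β' γ' τ' h'
    obtain ⟨β'', γ'', τ'', h'', hNI⟩ := h₀
    exact hall h' h'' hNI
  · intro x hx
    obtain ⟨β₁, γ₁, τ₁, h₁⟩ := hch x hx
    refine Filter.Eventually.filter_mono nhdsWithin_le_nhds ?_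
    filter_upwards [LCh.ni_iff hU h₁ (c := c), h₁.near] with y hy hyn
    constructor
    · intro hP β' γ' τ' h'
      exact hall h' hyn (hy.1 (hP β₁ γ₁ τ₁ h₁))
    · intro hP β' γ' τ' h'
      exact hall h' h₁ (hy.2 β₁ γ₁ τ₁ hyn (hP β₁ γ₁ τ₁ hyn))
  · intro a b c _ _ _ h1 h2 h3
    exact h2 (h1 h3)

end

end Vale.Agent.P284.H212
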