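import Vale.Agent.P284.H212.LFe
import Vale.Agent.P284.H212.Thin

/-!
# P284 (helper212), module C: `NIStmt`
-/

open scoped Manifold Topology ContDiff InnerProductSpace
open Filter Set Metric

noncomputable section

namespace Vale.Agent.P284.H212

open Vale.Agent.P272.K Vale.Agent.P284.H894.W Vale.Agent.P284.H894.G Vale.Agent.P284.H10
  Vale.Agent.P284.H494 Vale.Agent.P284.H573 Vale.Agent.P284.H395 Vale.Agent.P284.H378

section
variable {n R m q s : ℕ} {X : Type} [TopologicalSpace X] [ChartedSpace (Cm n) X] {E : Type}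
  [TopologicalSpace E] {p : E → X} {H : Type} [NormedAddCommGroup H] [InnerProductSpace ℂ H]
  {v : E → Chart n X → (Fin R → Cm n) → H} {F : E → Cm q} {T : Cm q →L[ℂ] Cm q}

/-- a normal form gives a leaf chart -/
theorem lch_mk [CompleteSpace H] (hp : IsCoveringMap p) (hH : HForm n R m p H v) {z : E}
    {e : Chart n X} {b : Cm n → Cm R} {β : Cm R → Cm s} {γ : Cm s → H} {τ : Cm s → Cm q}
    (mem : At e (p z)) (ban : AnalyticAt ℂ b (e (p z)))
    (bsurj : Function.Surjective (fderiv ℂ b (e (p z))))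
    (βan : AnalyticAt ℂ β (b (e (p z))))
    (βsurj : Function.Surjective (fderiv ℂ β (b (e (p z)))))
    (γan : AnalyticAt ℂ γ (β (b (e (p z))))) (imm : ImmAt γ (β (b (e (p z)))))
    (v_eq : ∀ᶠ y' in 𝓝 z, ∀ ξ : Fin R → Cm n, v y' e ξ =
      (Matrix.of fun i j => fderiv ℂ b (e (p y')) (ξ j) i).det ^ m • γ (β (b (e (p y')))))
    (τan : AnalyticAt ℂ τ (β (b (e (p z)))))
    (hT : ∀ᶠ y' in 𝓝 z, T (F y' - τ (β (b (e (p y'))))) = 0) :
    LCh p v F T z (fun y => β (b (e (p y)))) γ τ := by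
  have hep : Tendsto (fun y' => e (p y')) (𝓝 z) (𝓝 (e (p z))) := (map_nhds hp mem).le
  have hbp : Tendsto (fun y' => b (e (p y'))) (𝓝 z) (𝓝 (b (e (p z)))) :=
    ban.continuousAt.tendsto.comp hep
  have hβp : Tendsto (fun y' => β (b (e (p y')))) (𝓝 z) (𝓝 (β (b (e (p z))))) :=
    βan.continuousAt.tendsto.comp hbp
  -- open conditions
  have sb : ∀ᶠ x in 𝓝 (e (p z)), Function.Surjective (fderiv ℂ b x) := by
    obtain ⟨r, hr, h1⟩ := Metric.eventually_nhds_iff_ball.1 ban.eventually_analyticAt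
    exact surj_open isOpen_ball (fun x hx => (h1 x hx).differentiableAt.differentiableWithinAt)
      (mem_ball_self hr) bsurj
  have sβ : ∀ᶠ x in 𝓝 (b (e (p z))), Function.Surjective (fderiv ℂ β x) := by
    obtain ⟨r, hr, h1⟩ := Metric.eventually_nhds_iff_ball.1 βan.eventually_analyticAt
    exact surj_open isOpen_ball (fun x hx => (h1 x hx).differentiableAt.differentiableWithinAt)
      (mem_ball_self hr) βsurj
  have hat : ∀ᶠ y' in 𝓝 z, At e (p y') := by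
    filter_upwards [hp.continuous.continuousAt.eventually (e.open_source.mem_nhds mem.2)] with y' h
      using ⟨mem.1, h⟩
  have hγ0 : ∀ᶠ y' in 𝓝 z, γ (β (b (e (p y')))) ≠ 0 :=
    (γan.continuousAt.tendsto.comp hβp).eventually_ne imm.1
  refine ⟨γan, imm, τan, ?_⟩
  filter_upwards [hat, hγ0, v_eq, hT, hep.eventually (sb.and ban.eventually_analyticAt),
    hbp.eventually (sβ.and βan.eventually_analyticAt)] with y h1 h2 h3 h4 h5 h6
  have hy : map (fun y' => e (p y')) (𝓝 y) = 𝓝 (e (p y)) := map_nhds hp h1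
  have hb' : map b (𝓝 (e (p y))) = 𝓝 (b (e (p y))) :=
    h5.2.hasStrictFDerivAt.map_nhds_eq_of_surj (LinearMap.range_eq_top.2 h5.1)
  have hβ' : map β (𝓝 (b (e (p y)))) = 𝓝 (β (b (e (p y)))) :=
    h6.2.hasStrictFDerivAt.map_nhds_eq_of_surj (LinearMap.range_eq_top.2 h6.1)
  have hall : map (fun y' => β (b (e (p y')))) (𝓝 y) = 𝓝 (β (b (e (p y)))) := by
    rw [← hβ', ← hb', ← hy, Filter.map_map, Filter.map_map]
    rfl
  refine ⟨hall.le, hall.ge, ⟨e, h1, ?_⟩, ⟨h2, fun e' he' ξ => ?_⟩, h4⟩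
  · choose g hg using h5.1
    refine ⟨fun j => g (Pi.single j 1), ?_⟩
    rw [h3]
    have h7 : (Matrix.of fun i j => fderiv ℂ b (e (p y)) (g (Pi.single j 1)) i) =
        (1 : Matrix (Fin R) (Fin R) ℂ) := by
      ext i j
      rw [Matrix.of_apply, hg, Matrix.one_apply, Pi.single_apply]
    rw [h7, Matrix.det_one, one_pow, one_smul]
    exact h2
  · rw [hH.change y e' e he' h1 ξ, h3]
    exact ⟨_, rfl⟩

omit [TopologicalSpace E] in
/-- translates -/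
lemma onL_smul {Γ : Type} [Group Γ] [MulAction Γ E] {U : Γ → H →ₗᵢ[ℂ] H}
    (hU : ∀ g y (e : Chart n X), At e (p y) → ∀ ξ, v (g • y) e ξ = U g (v y e ξ))
    (hpsm : ∀ (g : Γ) (y : E), p (g • y) = p y) (g : Γ) {y : E} {x : H} (hz : NZ p v y)
    (hx : OnL p v y x) : NZ p v (g • y) ∧ OnL p v (g • y) (U g x) := by
  constructor
  · obtain ⟨e, he, ξ, hξ⟩ := hz
    refine ⟨e, by rw [hpsm]; exact he, ξ, ?_⟩
    rw [hU _ _ e he]
    exact fun h0 => hξ ((U g).injective (by rw [map_zero]; exact h0))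
  · refine ⟨fun h0 => hx.1 ((U g).injective (by rw [map_zero]; exact h0)), fun e he ξ => ?_⟩
    have he' : At e (p y) := by rwa [hpsm] at he
    obtain ⟨a, ha⟩ := hx.2 e he' ξ
    exact ⟨a, by rw [hU _ _ e he', ha, map_smul]⟩

/-- a projection with kernel the range of `N` -/
lemma exists_T {k q : ℕ} (N : Cm k →L[ℂ] Cm q) : ∃ T : Cm q →L[ℂ] Cm q, ∀ x,
    T x = 0 ↔ x ∈ LinearMap.range (N : Cm k →ₗ[ℂ] Cm q) := by
  obtain ⟨P, hP⟩ : (LinearMap.range (N : Cm k →ₗ[ℂ] Cm q)).ClosedComplemented :=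
    Submodule.ClosedComplemented.of_finiteDimensional _
  refine ⟨ContinuousLinearMap.id ℂ (Cm q) -
    (LinearMap.range (N : Cm k →ₗ[ℂ] Cm q)).subtypeL ∘L P, fun x => ?_⟩
  have h0 : (ContinuousLinearMap.id ℂ (Cm q) -
    (LinearMap.range (N : Cm k →ₗ[ℂ] Cm q)).subtypeL ∘L P) x = x - (P x : Cm q) := rfl
  rw [h0, sub_eq_zero]
  constructor
  · intro h
    rw [h]
    exact (P x).2
  · intro hx
    have h1 := hP ⟨x, hx⟩
    rw [h1]

/-- a sheet point is a sheet point in the weak form -/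
lemma shT_of {k : ℕ} (hp : IsCoveringMap p) (hH : HForm n R m p H v) {D : LeafDat q s k H}
    {N : Cm k →L[ℂ] Cm q} (hN : ∀ x, D.N x = N)
    (hT : ∀ x, T x = 0 ↔ x ∈ LinearMap.range (N : Cm k →ₗ[ℂ] Cm q)) {y : E} {b : Cm s}
    (h : Sh p v F D y b) : ShT p v F D.γ D.t T y b := by
  obtain ⟨e, β, he, hβ, hb, h1⟩ := h
  have hat : ∀ᶠ y' in 𝓝 y, At e (p y') := by
    filter_upwards [hp.continuous.continuousAt.eventually (e.open_source.mem_nhds he.2)] with y' h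
      using ⟨he.1, h⟩
  refine ⟨fun y' => β (e (p y')), ?_, hb, ?_⟩
  · exact hβ.continuousAt.tendsto.comp (map_nhds hp he).le
  · filter_upwards [h1, hat] with y' h2 h3
    refine ⟨fun e' he' ξ => ?_, ?_⟩
    · rw [hH.change y' e' e he' h3 ξ]
      exact h2.1 _
    · rw [hT]
      have h4 := h2.2
      unfold LeafDat.Q at h4
      rwa [hN] at h4

end

/-- **NI** -/
theorem niStmt : NIStmt := by
  intro n q r k s m X _ _ _ _ _ _ E Γ _ _ _ _ p hp w F c hF hc W H _ _ _ _ _ _ π Θ v U N 𝒢 hI D hDN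
  obtain ⟨B, hB⟩ := hF
  obtain ⟨T, hT⟩ := exists_T N
  -- the radius
  obtain ⟨C₀, -⟩ := exists_pc D.γan D.imm one_pos
  obtain ⟨R₁, hR₁, ht⟩ := Metric.eventually_nhds_iff_ball.1 D.tan.eventually_analyticAt
  set r₀ : ℝ := min C₀.r₁ R₁ / 3 with hr₀
  have hr₀pos : 0 < r₀ := by
    have := C₀.r₁_pos
    positivity
  have hγ₀ : ∀ b ∈ ball D.b₀ (3 * r₀), AnalyticAt ℂ D.γ b ∧ AnalyticAt ℂ D.t b ∧ ImmAt D.γ b := by
    intro b hb
    have h3 : 3 * r₀ = min C₀.r₁ R₁ := by rw [hr₀]; ring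
    rw [h3] at hb
    have hb1 : b ∈ ball D.b₀ C₀.r₁ := ball_subset_ball (min_le_left _ _) hb
    exact ⟨C₀.γan b (ball_subset_ball C₀.r₁_le hb1), ht b (ball_subset_ball (min_le_right _ _) hb),
      C₀.immAt hb1⟩
  refine ⟨r₀, hr₀pos, fun g y y₀ b hy hNZ hb hsh => ?_⟩
  have hne : Nonempty E := ⟨y₀⟩
  have hpsm : ∀ (g : Γ) (y : E), p (g • y) = p y := fun g y =>
    ((hp.orb y (g • y)).2 ⟨g, rfl⟩).symm
  -- leaf charts, at translates
  have hlc : ∀ (z : E) (e : Chart n X) (b' : Cm n → Cm (q + r)) (F0 : Cm (q + r) → W)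
      (β : Cm (q + r) → Cm s) (γ : Cm s → H) (τ : Cm s → Cm q),
      LC p F m v U π Θ N z e b' F0 β γ τ → ∀ κ : Γ, c κ = 0 →
      LCh p v F T (κ⁻¹ • z) (fun y => β (b' (e (p y)))) (fun x => U κ⁻¹ (γ x)) τ := by
    intro z e b' F0 β γ τ h κ hκ
    have hpz : p (κ⁻¹ • z) = p z := hpsm _ _
    have htr : Tendsto (fun y : E => κ • y) (𝓝 (κ⁻¹ • z)) (𝓝 z) := by
      have h1 : Tendsto (fun y : E => κ • y) (𝓝 (κ⁻¹ • z)) (𝓝 (κ • κ⁻¹ • z)) :=
        (hp.cont κ).continuousAt (x := κ⁻¹ • z)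
      rwa [smul_inv_smul] at h1
    have hFκ : ∀ y, F (κ • y) = F y := fun y => by rw [hc, hκ, add_zero]
    have hat : ∀ᶠ y' in 𝓝 (κ⁻¹ • z), At e (p y') := by
      filter_upwards [hp.cov.continuous.continuousAt.eventually
        (e.open_source.mem_nhds (show p (κ⁻¹ • z) ∈ e.source by rw [hpz]; exact h.mem.2))] with y' h'
        using ⟨h.mem.1, h'⟩
    refine lch_mk hp.cov hI.form (by rw [hpz]; exact h.mem) (by rw [hpz]; exact h.ban)
      (by rw [hpz]; exact h.bsurj) (by rw [hpz]; exact h.βan) (by rw [hpz]; exact h.βsurj) ?_ ?_ ?_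
      (by rw [hpz]; exact h.τan) ?_
    · rw [hpz]
      exact ((U κ⁻¹).toContinuousLinearMap.analyticAt _).comp h.γan
    · rw [hpz]
      refine ⟨fun h0 => h.imm.1 ((U κ⁻¹).injective (by rw [map_zero]; exact h0)), fun η a ha => ?_⟩
      have h1 : HasFDerivAt (fun x => U κ⁻¹ (γ x)) ((U κ⁻¹).toContinuousLinearMap ∘L
          fderiv ℂ γ (β (b' (e (p z))))) (β (b' (e (p z)))) :=
        (U κ⁻¹).toContinuousLinearMap.hasFDerivAt.comp _ h.γan.differentiableAt.hasFDerivAt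
      rw [h1.fderiv] at ha
      refine h.imm.2 η a ((U κ⁻¹).injective ?_)
      rw [map_smul]
      exact ha
    · filter_upwards [htr.eventually h.v_eq, hat] with y' h1 h2 ξ
      have h3 : v y' e ξ = U κ⁻¹ (v (κ • y') e ξ) := by
        rw [← hI.equi _ _ e (by rw [hpsm]; exact h2), inv_smul_smul]
      rw [h3, h1 ξ, map_smul, hpsm]
    · filter_upwards [htr.eventually h.t_eq, htr.eventually ((h.ban.continuousAt.tendsto.comp
        (map_nhds hp.cov h.mem).le).eventually h.leaf)] with y' h1 h2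
      rw [hT]
      simp only [Function.comp_apply, hpsm] at h1 h2
      rw [← hFκ y', h1]
      exact h2
  have hlc0 : ∀ (z : E) (e : Chart n X) (b' : Cm n → Cm (q + r)) (F0 : Cm (q + r) → W)
      (β : Cm (q + r) → Cm s) (γ : Cm s → H) (τ : Cm s → Cm q),
      LC p F m v U π Θ N z e b' F0 β γ τ →
      LCh p v F T z (fun y => β (b' (e (p y)))) γ τ := by
    intro z e b' F0 β γ τ h
    refine lch_mk hp.cov hI.form h.mem h.ban h.bsurj h.βan h.βsurj h.γan h.imm h.v_eq h.τan ?_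
    filter_upwards [h.t_eq, (h.ban.continuousAt.tendsto.comp
        (map_nhds hp.cov h.mem).le).eventually h.leaf] with y' h1 h2
    rw [hT, h1]
    exact h2
  have hlc1 : ∀ z ∈ 𝒢, ∃ (β : E → Cm s) (γ : Cm s → H) (τ : Cm s → Cm q),
      LCh p v F T z β γ τ := by
    intro z hz
    obtain ⟨e, b', F0, β, γ, τ, h⟩ := hI.chart z hz
    exact ⟨_, _, _, hlc0 z e b' F0 β γ τ h⟩
  obtain ⟨σ, hσ, hst, hni⟩ := lf_seq hp hI.form hI.equi hB hc (thin_dense hp.cov hI.good)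
    (thin_preconn hp.cov hI.good) hlc1 hr₀pos hγ₀ g hy hNZ hb
    (fun i => shT_of hp.cov hI.form hDN hT (hsh i))
  refine ⟨σ, hσ, fun z hz e b' F0 β γ τ h κ hκ => ?_⟩
  have hLC := hlc z e b' F0 β γ τ h κ hκ
  have hκz : κ⁻¹ • z ∈ 𝒢 := hI.inv κ⁻¹ z hz
  obtain ⟨r₁, hr₁, φ, h1, h2⟩ := hni _ hκz _ _ _ hLC
  obtain ⟨C, r₂, hr₂, -, -, hval⟩ := (hlc0 z e b' F0 β γ τ h).setup
  simp only [hpsm] at h1 h2 hval
  set x₀ : Cm s := β (b' (e (p z))) with hx₀
  set ρ : ℝ := min r₁ (r₂ / 2) with hρ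
  have hρpos : 0 < ρ := by positivity
  refine ⟨ρ, hρpos, fun ε hε => ?_⟩
  have h3 := h1.and ((h2 ε hε).and (h2 (r₂ / 2) (half_pos hr₂)))
  rw [← prod_atTop_atTop_eq, Filter.eventually_prod_iff] at h3
  obtain ⟨P₁, hP₁, P₂, hP₂, h4⟩ := h3
  obtain ⟨j₁, hj₁⟩ := eventually_atTop.1 hP₁
  obtain ⟨j₂, hj₂⟩ := eventually_atTop.1 hP₂
  refine ⟨max j₁ j₂, fun i hi j hj => ?_⟩
  obtain ⟨h5, h6, h7⟩ := h4 (hj₁ i ((le_max_left _ _).trans hi)) (hj₂ j ((le_max_right _ _).trans hj))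
  have hρ₁ : ball x₀ ρ ⊆ ball x₀ r₁ := ball_subset_ball (min_le_left _ _)
  refine ⟨φ (i, j), ⟨fun x hx => ((h5 x (hρ₁ hx)).1.differentiableAt.differentiableWithinAt),
    fun x hx => ⟨?_, ?_⟩⟩, fun x hx => h6 x (hρ₁ hx)⟩
  · obtain ⟨-, ⟨a, ha, h8⟩, -⟩ := h5 x (hρ₁ hx)
    have hx2 : x ∈ closedBall x₀ r₂ := by
      refine ball_subset_closedBall (ball_subset_ball ?_ hx)
      exact (min_le_right _ _).trans (half_le_self hr₂.le)
    have hφ2 : φ (i, j) x ∈ closedBall x₀ r₂ := by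
      rw [mem_closedBall]
      have h9 := h7 x (hρ₁ hx)
      have h10 : dist x x₀ < r₂ / 2 := lt_of_lt_of_le (mem_ball.1 hx) (min_le_right _ _)
      calc dist (φ (i, j) x) x₀ ≤ dist (φ (i, j) x) x + dist x x₀ := dist_triangle _ _ _
        _ ≤ r₂ := by rw [dist_eq_norm]; linarith
    obtain ⟨y₁, n₁, o₁⟩ := hval x hx2
    obtain ⟨y₂, n₂, o₂⟩ := hval _ hφ2
    obtain ⟨n₃, o₃⟩ := onL_smul hI.equi hpsm κ⁻¹ n₁ o₁
    refine ⟨a, ?_⟩
    rw [U_mul hI.equi hpsm _ κ⁻¹ n₁ o₁, U_mul hI.equi hpsm κ _ n₃ o₃, h8, map_smul,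
      ← U_mul hI.equi hpsm κ κ⁻¹ n₂ o₂, mul_inv_cancel, U_one hI.equi n₂ o₂]
  · rw [← hT]
    have h9 := (h5 x (hρ₁ hx)).2.2
    have hcc : c (κ * (g (σ i) * (g (σ j))⁻¹) * κ⁻¹) = c (g (σ i) * (g (σ j))⁻¹) := by
      rw [c_add hc, c_add hc κ, c_inv hc, hκ]
      simp
    rw [hcc]
    exact h9

end Vale.Agent.P284.H212
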