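import Vale.Agent.P284.H212.NI

/-!
# P284 (helper212), module C: near-identity relations from a sequence of sheet relations, local part
-/

open scoped Topology ContDiff
open Filter Set Metric

noncomputable section

namespace Vale.Agent.P284.H212

open Vale.Agent.P272.K Vale.Agent.P284.H573

variable {s q : ℕ} {H : Type} [NormedAddCommGroup H] [InnerProductSpace ℂ H]

/-- the domain of the chart contains the values of `V i ∘ w` on a fixed neighbourhood -/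
theorem PC.dom_seq {γ : Cm s → H} {b₀ : Cm s} (C : PC γ b₀) {Z : Type} [NormedAddCommGroup Z]
    {w : Z → H} {z₀ : Z} (hw : ContinuousAt w z₀) (hw0 : w z₀ ≠ 0) {ι : Type} {l : Filter ι}
    {z : ι → Z} (hz : Tendsto z l (𝓝 z₀)) {b : ι → Cm s} (hb : Tendsto b l (𝓝 b₀))
    {V : ι → H →ₗᵢ[ℂ] H} (h : ∀ᶠ i in l, ∃ a : ℂ, V i (w (z i)) = a • γ (b i)) :
    ∃ ρ > 0, ∀ᶠ i in l, ∀ x ∈ ball z₀ ρ, C.Dom (V i (w x)) := by
  obtain ⟨δ, hδ, hδb⟩ := Metric.eventually_nhds_iff_ball.1 C.dom_nhds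
  have hγc : ContinuousAt γ b₀ := (C.γan b₀ (mem_ball_self C.R_pos)).continuousAt
  set M : ℝ := ‖γ b₀‖ + 1 with hM
  have hMpos : 0 < M := by positivity
  have hwpos : 0 < ‖w z₀‖ := norm_pos_iff.2 hw0
  set A : ℝ := ‖w z₀‖ / (2 * M) with hA
  have hApos : 0 < A := by positivity
  have hAδ : 0 < A * δ / 4 := by positivity
  obtain ⟨ρ, hρ, hρb⟩ := Metric.continuousAt_iff.1 hw (A * δ / 4) hAδ
  refine ⟨ρ, hρ, ?_⟩
  have e1 : ∀ᶠ i in l, dist (w (z i)) (w z₀) < min (A * δ / 4) (‖w z₀‖ / 2) :=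
    (hw.tendsto.comp hz).eventually (ball_mem_nhds _ (lt_min hAδ (half_pos hwpos)))
  have e2 : ∀ᶠ i in l, dist (γ (b i)) (γ b₀) < min (δ / 4) 1 :=
    (hγc.tendsto.comp hb).eventually (ball_mem_nhds _ (by positivity))
  filter_upwards [e1, e2, h] with i h1 h2 ⟨a, ha⟩ x hx
  have h1a := h1.trans_le (min_le_left _ _)
  have h1b := h1.trans_le (min_le_right _ _)
  have h2a := h2.trans_le (min_le_left _ _)
  have h2b := h2.trans_le (min_le_right _ _)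
  rw [dist_eq_norm] at h1a h1b h2a h2b
  have h3 : ‖w z₀‖ / 2 ≤ ‖w (z i)‖ := by
    have := norm_sub_norm_le (w z₀) (w (z i))
    rw [norm_sub_rev] at h1b
    linarith
  have h4 : ‖γ (b i)‖ ≤ M := by
    have := norm_sub_norm_le (γ (b i)) (γ b₀)
    rw [hM]; linarith
  have h5 : ‖w (z i)‖ = ‖a‖ * ‖γ (b i)‖ := by
    rw [← (V i).norm_map (w (z i)), ha, norm_smul]
  have h6 : A ≤ ‖a‖ := by
    have : ‖w z₀‖ / 2 ≤ ‖a‖ * M := by
      calc ‖w z₀‖ / 2 ≤ ‖a‖ * ‖γ (b i)‖ := by rw [← h5]; exact h3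
        _ ≤ ‖a‖ * M := by gcongr
    rw [hA, div_le_iff₀ (by positivity)]
    linarith
  have ha0 : a ≠ 0 := by
    rintro rfl
    rw [norm_zero] at h6
    linarith
  have hx' : ‖w x - w z₀‖ < A * δ / 4 := by
    rw [← dist_eq_norm]; exact hρb (mem_ball.1 hx)
  have key : C.Dom (a⁻¹ • V i (w x)) := by
    apply hδb
    rw [mem_ball, dist_eq_norm]
    have h7 : a⁻¹ • V i (w x) - γ b₀ = a⁻¹ • V i (w x - w (z i)) + (γ (b i) - γ b₀) := by
      rw [map_sub, smul_sub, ha, smul_smul, inv_mul_cancel₀ ha0, one_smul]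
      abel
    rw [h7]
    have h8 : ‖w x - w (z i)‖ < A * δ / 2 := by
      calc ‖w x - w (z i)‖ = ‖(w x - w z₀) - (w (z i) - w z₀)‖ := by congr 1; abel
        _ ≤ ‖w x - w z₀‖ + ‖w (z i) - w z₀‖ := norm_sub_le _ _
        _ < A * δ / 2 := by linarith
    have h9 : ‖a‖⁻¹ ≤ A⁻¹ := inv_anti₀ hApos h6
    calc ‖a⁻¹ • V i (w x - w (z i)) + (γ (b i) - γ b₀)‖
        ≤ ‖a⁻¹ • V i (w x - w (z i))‖ + ‖γ (b i) - γ b₀‖ := norm_add_le _ _
      _ = ‖a‖⁻¹ * ‖w x - w (z i)‖ + ‖γ (b i) - γ b₀‖ := by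
          rw [norm_smul, norm_inv, LinearIsometry.norm_map]
      _ ≤ A⁻¹ * (A * δ / 2) + ‖γ (b i) - γ b₀‖ := by gcongr
      _ = δ / 2 + ‖γ (b i) - γ b₀‖ := by field_simp
      _ < δ := by linarith
  exact (C.dom_smul (inv_ne_zero ha0)).1 key

/-- the sheet relation near one point implies the relation on the ball -/
theorem PC.on_ball [CompleteSpace H] {γ : Cm s → H} {b₀ : Cm s} (C : PC γ b₀) {Z : Type}
    [NormedAddCommGroup Z] [NormedSpace ℂ Z] {w : Z → H} {B : Set Z} (hBc : IsPreconnected B)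
    (hw : ∀ z ∈ B, AnalyticAt ℂ w z) {V : H →ₗᵢ[ℂ] H} (hD : ∀ z ∈ B, C.Dom (V (w z)))
    {t : Cm s → Cm q} (ht : ∀ b ∈ ball b₀ C.R, AnalyticAt ℂ t b) {T : Cm q →L[ℂ] Cm q}
    {f : Z → Cm q} (hf : ∀ z ∈ B, AnalyticAt ℂ f z) {z₁ : Z} (hz₁ : z₁ ∈ B)
    (h : ∀ᶠ z in 𝓝 z₁, ∃ b'' ∈ ball b₀ C.r₁, (∃ a : ℂ, a ≠ 0 ∧ V (w z) = a • γ b'') ∧
      T (f z - t b'') = 0) {z : Z} (hz : z ∈ B) :
    (∃ a : ℂ, a ≠ 0 ∧ V (w z) = a • γ (C.g (C.P (V (w z))))) ∧
      T (f z - t (C.g (C.P (V (w z))))) = 0 := by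
  have hwan : ∀ z ∈ B, AnalyticAt ℂ (fun z => V (w z)) z := fun z hz =>
    (V.toContinuousLinearMap.analyticAt _).comp (hw z hz)
  have hphi : ∀ᶠ z in 𝓝 z₁, C.On (V (w z)) ∧ T (f z - t (C.g (C.P (V (w z))))) = 0 := by
    filter_upwards [h] with z hz
    obtain ⟨b'', hb'', ⟨a, ha, h1⟩, h2⟩ := hz
    obtain ⟨-, h3, h4⟩ := C.g_of hb'' ha h1
    refine ⟨?_, by rw [h3]; exact h2⟩
    unfold PC.On
    rw [h4, h3]
    exact h1
  constructor
  · refine ⟨C.a (V (w z)), C.a_ne (hD z hz), ?_⟩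
    exact C.cont hBc hwan hD hz₁ (hphi.mono fun b hb => hb.1) hz
  · have h1 : AnalyticOnNhd ℂ (fun z => T (f z - t (C.g (C.P (V (w z)))))) B := by
      intro z hz
      refine (T.analyticAt _).comp ((hf z hz).sub ?_)
      refine AnalyticAt.comp (g := t) (f := fun z => C.g (C.P (V (w z))))
        (ht _ (C.g_mem _ (hD z hz).2)) ?_
      exact AnalyticAt.comp (g := fun x => C.g (C.P x)) (C.gP_an (hD z hz)) (hwan z hz)
    exact h1.eqOn_zero_of_preconnected_of_eventuallyEq_zero hBc hz₁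
      (hphi.mono fun b hb => hb.2) hz

/-- the sheet map is open at the points where `γ'` is projectively immersive -/
theorem PC.open_at [CompleteSpace H] {γ γ' : Cm s → H} {b₀ b₁ : Cm s} (C : PC γ b₀)
    {V : H →ₗᵢ[ℂ] H} (hγ' : AnalyticAt ℂ γ' b₁) (himm : ImmAt γ' b₁) (hD : C.Dom (V (γ' b₁)))
    (h : ∀ᶠ b in 𝓝 b₁, ∃ a : ℂ, a ≠ 0 ∧ V (γ' b) = a • γ (C.g (C.P (V (γ' b))))) :
    AnalyticAt ℂ (fun b => C.g (C.P (V (γ' b)))) b₁ ∧
      𝓝 (C.g (C.P (V (γ' b₁)))) ≤ map (fun b => C.g (C.P (V (γ' b)))) (𝓝 b₁) := by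
  set B : Cm s → Cm s := fun b => C.g (C.P (V (γ' b))) with hB
  have hVan : AnalyticAt ℂ (fun b => V (γ' b)) b₁ :=
    (V.toContinuousLinearMap.analyticAt _).comp hγ'
  have hBan : AnalyticAt ℂ B b₁ :=
    AnalyticAt.comp (g := fun x => C.g (C.P x)) (C.gP_an hD) hVan
  refine ⟨hBan, ?_⟩
  have hAan : AnalyticAt ℂ (fun b => C.a (V (γ' b))) b₁ :=
    AnalyticAt.comp (g := C.a) (C.a_an hD) hVan
  have hγB : AnalyticAt ℂ γ (B b₁) := C.γan _ (C.g_mem _ hD.2)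
  have hDn : ∀ᶠ b in 𝓝 b₁, C.Dom (V (γ' b)) :=
    hVan.continuousAt.eventually (C.dom_open.mem_nhds hD)
  -- the relation with the analytic factor
  have hrel : (fun b => V (γ' b)) =ᶠ[𝓝 b₁] fun b => C.a (V (γ' b)) • γ (B b) := by
    filter_upwards [h, hDn] with b hb hDb
    obtain ⟨a, ha, h1⟩ := hb
    have h2 : C.a (V (γ' b)) = a := by
      unfold PC.a
      have h3 : C.l₀ (V (γ' b)) = a * C.l₀ (γ (B b)) := by
        conv_lhs => rw [h1]
        rw [map_smul, smul_eq_mul]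
      rw [h3, mul_div_assoc, div_self (C.l₀_g _ hDb.2), mul_one]
    rw [h2]
    exact h1
  have hinj : ∀ η, fderiv ℂ B b₁ η = 0 → η = 0 := by
    intro η hη
    have d1 : HasFDerivAt (fun b => V (γ' b)) (V.toContinuousLinearMap ∘L fderiv ℂ γ' b₁) b₁ :=
      V.toContinuousLinearMap.hasFDerivAt.comp b₁ hγ'.differentiableAt.hasFDerivAt
    have d2 : HasFDerivAt (fun b => γ (B b)) (fderiv ℂ γ (B b₁) ∘L fderiv ℂ B b₁) b₁ :=
      HasFDerivAt.comp (g := γ) b₁ hγB.differentiableAt.hasFDerivAt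
        hBan.differentiableAt.hasFDerivAt
    have d3 := hAan.differentiableAt.hasFDerivAt.smul d2
    have d4 := d1.unique (d3.congr_of_eventuallyEq hrel)
    have d5 := congrArg (fun L : Cm s →L[ℂ] H => L η) d4
    simp only [ContinuousLinearMap.comp_apply, _root_.add_apply,
      _root_.smul_apply, ContinuousLinearMap.smulRight_apply, hη, map_zero,
      smul_zero, zero_add] at d5
    have h0 := hrel.self_of_nhds
    simp only at h0
    have hane : C.a (V (γ' b₁)) ≠ 0 := C.a_ne hD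
    have h1 : γ (B b₁) = (C.a (V (γ' b₁)))⁻¹ • V (γ' b₁) :=
      (eq_inv_smul_iff₀ hane).2 h0.symm
    rw [h1, smul_smul] at d5
    have h2 : V (fderiv ℂ γ' b₁ η) = V ((fderiv ℂ (fun b => C.a (V (γ' b))) b₁ η *
        (C.a (V (γ' b₁)))⁻¹) • γ' b₁) := by
      rw [map_smul]; exact d5
    exact himm.2 η _ (V.injective h2)
  have hsurj : Function.Surjective (fderiv ℂ B b₁) := by
    have h1 : Function.Injective ((fderiv ℂ B b₁ : Cm s →L[ℂ] Cm s) : Cm s →ₗ[ℂ] Cm s) := by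
      rw [injective_iff_map_eq_zero]
      exact hinj
    exact LinearMap.injective_iff_surjective.1 h1
  have hst : HasStrictFDerivAt B (fderiv ℂ B b₁) b₁ := hBan.hasStrictFDerivAt
  exact (hst.map_nhds_eq_of_surj (LinearMap.range_eq_top.2 hsurj)).ge

end Vale.Agent.P284.H212
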