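import Vale.Agent.P284.H212.LFa

/-!
# P284 (helper212), module C: the pairs of a sequence of sheet relations give near-identity relations
-/

open scoped Topology ContDiff
open Filter Set Metric

noncomputable section

namespace Vale.Agent.P284.H212

open Vale.Agent.P272.K Vale.Agent.P284.H573

variable {s q : ℕ} {H : Type} [NormedAddCommGroup H] [InnerProductSpace ℂ H]

lemma ev_fst {P : ℕ → Prop} (h : ∀ᶠ i in atTop, P i) : ∀ᶠ ij : ℕ × ℕ in atTop, P ij.1 := by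
  rw [← prod_atTop_atTop_eq]
  exact tendsto_fst.eventually h

lemma ev_snd {P : ℕ → Prop} (h : ∀ᶠ i in atTop, P i) : ∀ᶠ ij : ℕ × ℕ in atTop, P ij.2 := by
  rw [← prod_atTop_atTop_eq]
  exact tendsto_snd.eventually h

/-- **near-identity relations** from a sequence of sheet relations. -/
theorem wni_of_seq [CompleteSpace H] {γ γ' : Cm s → H} {b₀ b₁ b' : Cm s} (C : PC γ b₀)
    (C' : PC γ' b₁) {t τ : Cm s → Cm q} {T : Cm q →L[ℂ] Cm q} {r : ℝ} (hr : 0 < r)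
    {V V' : ℕ → H →ₗᵢ[ℂ] H} {W : ℕ × ℕ → H →ₗᵢ[ℂ] H} {d : ℕ → Cm q}
    (hrel : ∀ i, ∀ b ∈ ball b₁ r, C.Dom (V i (γ' b)) ∧
      (∃ a : ℂ, a ≠ 0 ∧ V i (γ' b) = a • γ (C.g (C.P (V i (γ' b))))) ∧
      T (τ b + d i - t (C.g (C.P (V i (γ' b))))) = 0)
    (hVV : ∀ i, ∀ b ∈ ball b₁ r, V' i (V i (γ' b)) = γ' b)
    (hW : ∀ i j, ∀ b ∈ ball b₁ r, W (i, j) (γ' b) = V' i (V j (γ' b)))
    (hWt : Tendsto (fun ij => W ij (γ' b₁)) atTop (𝓝 (γ' b₁)))
    (hb' : Tendsto (fun i => C.g (C.P (V i (γ' b₁)))) atTop (𝓝 b'))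
    (hγb' : AnalyticAt ℂ γ b') (hγ0 : γ b' ≠ 0) :
    WNI C' τ T atTop W (fun ij => d ij.2 - d ij.1) b₁ := by
  set B : ℕ → Cm s → Cm s := fun i b => C.g (C.P (V i (γ' b))) with hB
  have hb₁ : b₁ ∈ ball b₁ r := mem_ball_self hr
  have hb₁' : b₁ ∈ ball b₁ C'.r₁ := mem_ball_self C'.r₁_pos
  have hγ'an : AnalyticAt ℂ γ' b₁ := C'.γan _ (mem_ball_self C'.R_pos)
  have hinv : ∀ i, ∀ b ∈ ball b₁ r, ∃ a : ℂ, a ≠ 0 ∧ V' i (γ (B i b)) = a • γ' b := by
    intro i b hb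
    obtain ⟨-, ⟨a, ha, h1⟩, -⟩ := hrel i b hb
    refine ⟨a⁻¹, inv_ne_zero ha, ?_⟩
    have h2 := hVV i b hb
    rw [h1, map_smul] at h2
    rw [← h2, smul_smul, inv_mul_cancel₀ ha, one_smul]
  -- the domain
  obtain ⟨ρ, hρ, h1⟩ := C'.dom_seq (w := γ) (z₀ := b') hγb'.continuousAt hγ0 hb'
    (b := fun _ => b₁) tendsto_const_nhds (V := V')
    (Eventually.of_forall fun i => by
      obtain ⟨a, -, h⟩ := hinv i b₁ hb₁
      exact ⟨a, h⟩)
  obtain ⟨R', hR', hγR⟩ := Metric.eventually_nhds_iff_ball.1 hγb'.eventually_analyticAt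
  set ρ₁ : ℝ := min ρ R' with hρ₁
  have hρ₁pos : 0 < ρ₁ := lt_min hρ hR'
  have h2 : ∀ᶠ i in atTop, B i b₁ ∈ ball b' ρ₁ := hb'.eventually (ball_mem_nhds _ hρ₁pos)
  have hopen : ∀ i, AnalyticAt ℂ (B i) b₁ ∧ 𝓝 (B i b₁) ≤ map (B i) (𝓝 b₁) := by
    intro i
    refine C.open_at hγ'an (C'.immAt hb₁') (hrel i b₁ hb₁).1 ?_
    filter_upwards [isOpen_ball.mem_nhds hb₁] with b hb using (hrel i b hb).2.1
  -- the inverse relation on a fixed ball
  have h3 : ∀ᶠ i in atTop, ∀ x ∈ ball b' ρ₁,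
      ∃ a : ℂ, a ≠ 0 ∧ V' i (γ x) = a • γ' (C'.g (C'.P (V' i (γ x)))) := by
    filter_upwards [h1, h2] with i hi1 hi2 x hx
    refine (C'.on_ball (B := ball b' ρ₁) (convex_ball b' ρ₁).isPreconnected (w := γ) (V := V' i)
      (fun z hz => hγR z (ball_subset_ball (min_le_right _ _) hz))
      (fun z hz => hi1 z (ball_subset_ball (min_le_left _ _) hz))
      (t := fun _ => (0 : Cm q)) (fun b _ => analyticAt_const) (T := 0)
      (f := fun _ => (0 : Cm q)) (fun b _ => analyticAt_const) hi2 ?_ hx).1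
    refine Filter.Eventually.filter_mono (hopen i).2 (eventually_map.2 ?_)
    filter_upwards [isOpen_ball.mem_nhds hb₁, isOpen_ball.mem_nhds hb₁'] with b hb hb''
    exact ⟨b, hb'', hinv i b hb, rfl⟩
  -- the pairs
  have hDγ : C'.Dom (γ' b₁) := C'.dom_γ hb₁'
  have hgP : C'.g (C'.P (γ' b₁)) = b₁ := C'.gP b₁ hb₁'
  have hcont : ContinuousAt (fun x => C'.g (C'.P x)) (γ' b₁) := (C'.gP_an hDγ).continuousAt
  set r₂ : ℝ := min r C'.r₁ with hr₂
  have hr₂pos : 0 < r₂ := lt_min hr C'.r₁_pos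
  have h4 : ∀ᶠ ij : ℕ × ℕ in atTop, C'.Dom (W ij (γ' b₁)) ∧
      C'.g (C'.P (W ij (γ' b₁))) ∈ ball b₁ r₂ := by
    refine (hWt.eventually (C'.dom_open.mem_nhds hDγ)).and ?_
    have h5 := hcont.tendsto.comp hWt
    rw [hgP] at h5
    exact h5.eventually (ball_mem_nhds _ hr₂pos)
  filter_upwards [h4, ev_fst h3, ev_snd h2] with ij h5 h6 h7
  obtain ⟨i, j⟩ := ij
  have hWan : AnalyticAt ℂ (fun b => W (i, j) (γ' b)) b₁ :=
    ((W (i, j)).toContinuousLinearMap.analyticAt _).comp hγ'an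
  have hc1 : ContinuousAt (fun b => C'.g (C'.P (W (i, j) (γ' b)))) b₁ :=
    ContinuousAt.comp (g := fun x => C'.g (C'.P x)) (f := fun b => W (i, j) (γ' b))
      (C'.gP_an h5.1).continuousAt hWan.continuousAt
  have e1 : ∀ᶠ b in 𝓝 b₁, C'.g (C'.P (W (i, j) (γ' b))) ∈ ball b₁ r₂ :=
    hc1.eventually (isOpen_ball.mem_nhds h5.2)
  have e2 : ∀ᶠ b in 𝓝 b₁, B j b ∈ ball b' ρ₁ :=
    (hopen j).1.continuousAt.eventually (isOpen_ball.mem_nhds h7)
  filter_upwards [e1, e2, isOpen_ball.mem_nhds hb₁] with b he1 he2 hb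
  obtain ⟨-, ⟨a, ha, h8⟩, h9⟩ := hrel j b hb
  obtain ⟨a', ha', h10⟩ := h6 _ he2
  have h11 : W (i, j) (γ' b) = a • V' i (γ (B j b)) := by
    rw [hW i j b hb, h8, map_smul]
  have h12 : C'.P (W (i, j) (γ' b)) = C'.P (V' i (γ (B j b))) := by
    rw [h11, C'.P_smul ha]
  set b'' : Cm s := C'.g (C'.P (W (i, j) (γ' b))) with hb''
  have hb''r : b'' ∈ ball b₁ r := ball_subset_ball (min_le_left _ _) he1
  have hb''r' : b'' ∈ ball b₁ C'.r₁ := ball_subset_ball (min_le_right _ _) he1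
  have h13 : W (i, j) (γ' b) = (a * a') • γ' b'' := by
    rw [h11, mul_smul, hb'', h12, ← h10]
  refine ⟨b'', hb''r', ⟨a * a', mul_ne_zero ha ha', h13⟩, ?_⟩
  -- the `T` part
  have h14 : V i (γ' b'') = (a * a')⁻¹ • V j (γ' b) := by
    apply (V' i).injective
    rw [map_smul, hVV i b'' hb''r, ← hW i j b hb, h13, smul_smul,
      inv_mul_cancel₀ (mul_ne_zero ha ha'), one_smul]
  have h15 : B i b'' = B j b := by
    simp only [hB]
    rw [h14, C.P_smul (inv_ne_zero (mul_ne_zero ha ha'))]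
  have h16 := (hrel i b'' hb''r).2.2
  have h17 : T (τ b'' + d i - t (B i b'')) = 0 := h16
  rw [h15] at h17
  have h18 : T (τ b + d j - t (B j b)) = 0 := h9
  have h19 : τ b'' - τ b - (d j - d i) = (τ b'' + d i - t (B j b)) - (τ b + d j - t (B j b)) := by
    abel
  show T (τ b'' - τ b - (d j - d i)) = 0
  rw [h19, map_sub, h17, h18, sub_zero]

end Vale.Agent.P284.H212
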