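import Vale.Agent.P284.H212.LCh
import Vale.Agent.P284.H494.Loc

/-!
# P284 (helper212), module C: the values of the form `v`
-/

open scoped Manifold Topology ContDiff InnerProductSpace
open Filter Set Metric

noncomputable section

namespace Vale.Agent.P284.H212

open Vale.Agent.P272.K Vale.Agent.P284.H894.W Vale.Agent.P284.H894.G Vale.Agent.P284.H10
  Vale.Agent.P284.H494 Vale.Agent.P284.H573 Vale.Agent.P284.H395

variable {n R m q s : ℕ} {X : Type} [TopologicalSpace X] [ChartedSpace (Cm n) X] {E : Type}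
  [TopologicalSpace E] {p : E → X} {H : Type} [NormedAddCommGroup H] [InnerProductSpace ℂ H]
  {v : E → Chart n X → (Fin R → Cm n) → H}

/-- the local representative of `v` is analytic -/
theorem v_an (hH : HForm n R m p H v) {e : Chart n X} {ε : OpenPartialHomeomorph E (Cm n)}
    (hε : IsCh p e ε) (ξ : Fin R → Cm n) :
    AnalyticOnNhd ℂ (fun z => v (ε.symm z) e ξ) ε.target := by
  intro z hz
  have hy := ε.map_target hz
  obtain ⟨Fv, h1, h2⟩ := hH.hol (ε.symm z) e (hε.at hy)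
  have h3 : AnalyticAt ℂ Fv (z, ξ) := by
    have := h1 ξ
    rwa [← hε.eq _ hy, ε.right_inv hz] at this
  have h4 : AnalyticAt ℂ (fun z => Fv (z, ξ)) z :=
    AnalyticAt.comp (g := Fv) (f := fun z => (z, ξ)) h3 (analyticAt_id.prod analyticAt_const)
  refine h4.congr ?_
  have h5 : Tendsto ε.symm (𝓝 z) (𝓝 (ε.symm z)) := ε.continuousAt_symm hz
  filter_upwards [h5.eventually h2, ε.open_target.mem_nhds hz] with z' h6 h7
  rw [h6 ξ, ← hε.eq _ (ε.map_target h7), ε.right_inv h7]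

/-- `v` is continuous -/
theorem v_cont (hp : IsCoveringMap p) (hH : HForm n R m p H v) {y : E} {e : Chart n X}
    (he : At e (p y)) (ξ : Fin R → Cm n) : ContinuousAt (fun y' => v y' e ξ) y := by
  obtain ⟨Fv, h1, h2⟩ := hH.hol y e he
  have h3 : Tendsto (fun y' => e (p y')) (𝓝 y) (𝓝 (e (p y))) := (map_nhds hp he).le
  have h4 : ContinuousAt (fun y' => Fv (e (p y'), ξ)) y := by
    refine ContinuousAt.comp (g := Fv) (f := fun y' => (e (p y'), ξ)) (h1 ξ).continuousAt ?_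
    exact ContinuousAt.prodMk h3 continuousAt_const
  refine h4.congr ?_
  filter_upwards [h2] with y' h5 using (h5 ξ).symm

/-- the line of `v` -/
theorem onL_of_dense (hp : IsCoveringMap p) (hH : HForm n R m p H v) {𝒢 : Set E}
    (h𝒢 : Dense 𝒢) (hL : ∀ y ∈ 𝒢, ∃ x, OnL p v y x) {y : E} {e : Chart n X} (he : At e (p y))
    {ξ₀ : Fin R → Cm n} (h0 : v y e ξ₀ ≠ 0) : OnL p v y (v y e ξ₀) := by
  refine ⟨h0, fun e' he' ξ => ?_⟩
  rw [hH.change y e' e he' he ξ]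
  set ξ' : Fin R → Cm n := fun i => fderiv ℂ (fun z => e (e'.symm z)) (e' (p y)) (ξ i) with hξ'
  have hAc := v_cont hp hH he ξ'
  have hBc := v_cont hp hH he ξ₀
  have h1 : ContinuousAt (fun y' => ⟪v y' e ξ₀, v y' e ξ₀⟫_ℂ • v y' e ξ') y :=
    (hBc.inner (𝕜 := ℂ) hBc).smul hAc
  have h2 : ContinuousAt (fun y' => ⟪v y' e ξ₀, v y' e ξ'⟫_ℂ • v y' e ξ₀) y :=
    (hBc.inner (𝕜 := ℂ) hAc).smul hBc
  have hat : ∀ᶠ y' in 𝓝 y, At e (p y') := by
    filter_upwards [hp.continuous.continuousAt.eventually (e.open_source.mem_nhds he.2)] with y' h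
      using ⟨he.1, h⟩
  have h3 : ∃ᶠ y' in 𝓝 y, ⟪v y' e ξ₀, v y' e ξ₀⟫_ℂ • v y' e ξ' =
      ⟪v y' e ξ₀, v y' e ξ'⟫_ℂ • v y' e ξ₀ := by
    refine ((mem_closure_iff_frequently.1 (h𝒢 y)).and_eventually hat).mono ?_
    rintro y' ⟨hy', hat'⟩
    obtain ⟨x, hx⟩ := hL y' hy'
    obtain ⟨a, ha⟩ := hx.2 e hat' ξ₀
    obtain ⟨a', ha'⟩ := hx.2 e hat' ξ'
    rw [ha, ha']
    simp only [inner_smul_left, inner_smul_right, smul_smul]
    congr 1
    ring
  have h4 := tendsto_nhds_unique_of_frequently_eq h1.tendsto h2.tendsto h3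
  have h5 : ⟪v y e ξ₀, v y e ξ₀⟫_ℂ ≠ 0 := inner_self_ne_zero.2 h0
  refine ⟨(⟪v y e ξ₀, v y e ξ₀⟫_ℂ)⁻¹ * ⟪v y e ξ₀, v y e ξ'⟫_ℂ, ?_⟩
  rw [mul_smul, ← h4, smul_smul, inv_mul_cancel₀ h5, one_smul]

/-- identity theorem for `v` -/
theorem v_ident [ConnectedSpace E] (hp : IsCoveringMap p) (hH : HForm n R m p H v) {x : H} {y₀ : E}
    (h : ∀ᶠ y in 𝓝 y₀, ∀ e : Chart n X, At e (p y) → ∀ ξ, ⟪x, v y e ξ⟫_ℂ = 0) :
    ∀ y (e : Chart n X), At e (p y) → ∀ ξ, ⟪x, v y e ξ⟫_ℂ = 0 := by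
  set Z : Set E := {y | ∀ᶠ y' in 𝓝 y, ∀ e : Chart n X, At e (p y') → ∀ ξ, ⟪x, v y' e ξ⟫_ℂ = 0}
    with hZ
  have hopen : IsOpen Z := by
    rw [isOpen_iff_mem_nhds]
    intro y hy
    exact eventually_eventually_nhds.2 hy
  have hclosed : IsClosed Z := by
    rw [← closure_subset_iff_isClosed]
    intro y hy
    obtain ⟨e, ε, hε, hyε, -, hc⟩ := exists_ch (n := n) hp y univ_mem
    obtain ⟨y', hy'ε, hy'⟩ := mem_closure_iff.1 hy ε.source ε.open_source hyε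
    have h1 : ∀ ξ, ∀ z ∈ ε.target, ⟪x, v (ε.symm z) e ξ⟫_ℂ = 0 := by
      intro ξ
      have h2 : AnalyticOnNhd ℂ (fun z => innerSL ℂ x (v (ε.symm z) e ξ)) ε.target :=
        fun z hz => ((innerSL ℂ x).analyticAt _).comp (v_an hH hε ξ z hz)
      refine fun z hz => h2.eqOn_zero_of_preconnected_of_eventuallyEq_zero hc.isPreconnected
        (ε.map_source hy'ε) ?_ hz
      have h3 := (IsCh.symm_tendsto hy'ε).eventually hy'
      filter_upwards [h3, ε.open_target.mem_nhds (ε.map_source hy'ε)] with z h4 h5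
      exact h4 e (hε.at (ε.map_target h5)) ξ
    show ∀ᶠ y' in 𝓝 y, ∀ e : Chart n X, At e (p y') → ∀ ξ, ⟪x, v y' e ξ⟫_ℂ = 0
    filter_upwards [ε.open_source.mem_nhds hyε] with y'' h2 e' he' ξ
    rw [hH.change y'' e' e he' (hε.at h2) ξ]
    have h3 := h1 (fun i => fderiv ℂ (fun z => e (e'.symm z)) (e' (p y'')) (ξ i)) _
      (ε.map_source h2)
    rwa [ε.left_inv h2] at h3
  have huniv : Z = univ := IsClopen.eq_univ ⟨hclosed, hopen⟩ ⟨y₀, h⟩
  intro y e he ξ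
  have hy : y ∈ Z := by rw [huniv]; trivial
  have h1 : ∀ᶠ y' in 𝓝 y, ∀ e : Chart n X, At e (p y') → ∀ ξ, ⟪x, v y' e ξ⟫_ℂ = 0 := hy
  exact h1.self_of_nhds e he ξ

/-- all values of `v` lie in the closed span of the values of one line generator near one point -/
theorem v_mem_span [CompleteSpace H] [ConnectedSpace E] (hp : IsCoveringMap p)
    (hH : HForm n R m p H v) {y₀ : E} {S : Submodule ℂ H}
    (h : ∀ᶠ y in 𝓝 y₀, ∃ x ∈ S, OnL p v y x) (y : E) {e : Chart n X} (he : At e (p y))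
    (ξ : Fin R → Cm n) : v y e ξ ∈ S.topologicalClosure := by
  rw [← Submodule.orthogonal_orthogonal_eq_closure, Submodule.mem_orthogonal]
  intro x hx
  refine v_ident (y₀ := y₀) hp hH ?_ y e he ξ
  filter_upwards [h] with y' ⟨x', hx', h1⟩ e' he' ξ'
  obtain ⟨a, ha⟩ := h1.2 e' he' ξ'
  rw [ha, inner_smul_right, Submodule.inner_left_of_mem_orthogonal hx' hx, mul_zero]

end Vale.Agent.P284.H212
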