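import Vale.Agent.P284.H212.LFb
import Vale.Agent.P284.H212.LFc
import Vale.Agent.P284.H885.C4

/-!
# P284 (helper212), module C: the extraction, first part: a fixed ball and strong convergence
-/

open scoped Manifold Topology ContDiff InnerProductSpace
open Filter Set Metric

noncomputable section

namespace Vale.Agent.P284.H212

open Vale.Agent.P272.K Vale.Agent.P284.H894.W Vale.Agent.P284.H894.G Vale.Agent.P284.H10
  Vale.Agent.P284.H494 Vale.Agent.P284.H573 Vale.Agent.P284.H395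

variable {n R m q s : ℕ} {X : Type} [TopologicalSpace X] [ChartedSpace (Cm n) X] {E : Type}
  [TopologicalSpace E] {p : E → X} {H : Type} [NormedAddCommGroup H] [InnerProductSpace ℂ H]
  {v : E → Chart n X → (Fin R → Cm n) → H}

/-- `y` lies on the sheet over the point `b` -/
def ShT (p : E → X) (v : E → Chart n X → (Fin R → Cm n) → H) (F : E → Cm q) (γ : Cm s → H)
    (t : Cm s → Cm q) (T : Cm q →L[ℂ] Cm q) (y : E) (b : Cm s) : Prop :=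
  ∃ β : E → Cm s, ContinuousAt β y ∧ β y = b ∧ ∀ᶠ y' in 𝓝 y,
    (∀ e : Chart n X, At e (p y') → ∀ ξ, ∃ a : ℂ, v y' e ξ = a • γ (β y')) ∧
      T (F y' - t (β y')) = 0

/-- the sheet relation for `V x` -/
def Rel {γ : Cm s → H} {b₀ : Cm s} (C : PC γ b₀) (t : Cm s → Cm q) (T : Cm q →L[ℂ] Cm q)
    (V : H →ₗᵢ[ℂ] H) (x : H) (f : Cm q) : Prop :=
  C.Dom (V x) ∧ (∃ a : ℂ, a ≠ 0 ∧ V x = a • γ (C.g (C.P (V x)))) ∧
    T (f - t (C.g (C.P (V x)))) = 0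

lemma Rel.smul {γ : Cm s → H} {b₀ : Cm s} {C : PC γ b₀} {t : Cm s → Cm q} {T : Cm q →L[ℂ] Cm q}
    {V : H →ₗᵢ[ℂ] H} {x : H} {f : Cm q} (h : Rel C t T V x f) {a : ℂ} (ha : a ≠ 0) :
    Rel C t T V (a • x) f := by
  obtain ⟨h1, ⟨a', ha', h2⟩, h3⟩ := h
  have h4 : C.P (V (a • x)) = C.P (V x) := by rw [map_smul, C.P_smul ha]
  refine ⟨?_, ⟨a * a', mul_ne_zero ha ha', ?_⟩, ?_⟩
  · rw [map_smul, C.dom_smul ha]; exact h1
  · rw [h4, map_smul, mul_smul, ← h2]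
  · rw [h4]; exact h3

variable {Γ : Type} [Group Γ] [MulAction Γ E] {w : Chart n X → Cm n → Matrix (Fin n) (Fin n) ℂ}
  {B : ℝ} {F : E → Cm q} {c : Γ → Cm q} {U : Γ → H →ₗᵢ[ℂ] H}

/-- **the relation holds on a fixed ball** along a subsequence -/
theorem lf_ball [CompleteSpace H] (hp : IsGalois Γ p) (hH : HForm n R m p H v)
    (hU : ∀ g y (e : Chart n X), At e (p y) → ∀ ξ, v (g • y) e ξ = U g (v y e ξ))
    (hF : HolB p w F B) (hc : ∀ g y, F (g • y) = F y + c g) {T : Cm q →L[ℂ] Cm q} {𝒢 : Set E}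
    (h𝒢d : Dense 𝒢) (hL : ∀ y ∈ 𝒢, ∃ x, OnL p v y x) {γ₀ : Cm s → H} {t₀ : Cm s → Cm q}
    {b₀ : Cm s} {r₀ : ℝ} (hr₀ : 0 < r₀)
    (hγ₀ : ∀ b ∈ ball b₀ (3 * r₀), AnalyticAt ℂ γ₀ b ∧ AnalyticAt ℂ t₀ b ∧ ImmAt γ₀ b)
    (g : ℕ → Γ) {y : ℕ → E} {y₀ : E} (hy : Tendsto y atTop (𝓝 y₀)) (hNZ : NZ p v y₀)
    {b : ℕ → Cm s} (hb : ∀ i, b i ∈ ball b₀ r₀)
    (hsh : ∀ i, ShT p v F γ₀ t₀ T ((g i)⁻¹ • y i) (b i)) :
    ∃ σ : ℕ → ℕ, StrictMono σ ∧ ∃ (b' : Cm s) (C : PC γ₀ b') (w' : Cm n → H) (e : Chart n X)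
      (ε : OpenPartialHomeomorph E (Cm n)) (ρ : ℝ), b' ∈ closedBall b₀ r₀ ∧ C.R ≤ r₀ ∧
      IsCh p e ε ∧ y₀ ∈ ε.source ∧ 0 < ρ ∧ ball (ε y₀) ρ ⊆ ε.target ∧
      (∀ z ∈ ball (ε y₀) ρ, AnalyticAt ℂ w' z ∧ OnL p v (ε.symm z) (w' z)) ∧
      ∀ i, ∀ z ∈ ball (ε y₀) ρ, Rel C t₀ T (U (g (σ i))⁻¹) (w' z)
        (F (ε.symm z) + c (g (σ i))⁻¹) := by
  obtain ⟨b', hb', σ₁, hσ₁, hlim⟩ := (isCompact_closedBall b₀ r₀).tendsto_subseq
    (fun i => ball_subset_closedBall (hb i))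
  obtain ⟨e, he, ξ₀, h0⟩ := hNZ
  have hpsm : ∀ g (y : E), p (g • y) = p y := fun g y => ((hp.orb y (g • y)).2 ⟨g, rfl⟩).symm
  have hO : ∀ᶠ y in 𝓝 y₀, v y e ξ₀ ≠ 0 := (v_cont hp.cov hH he ξ₀).eventually_ne h0
  obtain ⟨ε, hε, hyε, hsub, -⟩ := exists_ch_at hp.cov he hO
  set w' : Cm n → H := fun z => v (ε.symm z) e ξ₀ with hw'
  have hsub3 : ∀ b ∈ ball b' r₀, b ∈ ball b₀ (3 * r₀) := by
    intro b hb
    rw [mem_ball] at hb ⊢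
    rw [mem_closedBall] at hb'
    calc dist b b₀ ≤ dist b b' + dist b' b₀ := dist_triangle _ _ _
      _ < 3 * r₀ := by linarith
  have hb'3 := hγ₀ b' (hsub3 b' (mem_ball_self hr₀))
  obtain ⟨C, hC⟩ := exists_pc hb'3.1 hb'3.2.2 hr₀
  have hzt : Tendsto (fun i => ε (y (σ₁ i))) atTop (𝓝 (ε y₀)) :=
    (ε.continuousAt hyε).tendsto.comp (hy.comp hσ₁.tendsto_atTop)
  have hsrc : ∀ᶠ i in atTop, y (σ₁ i) ∈ ε.source :=
    (hy.comp hσ₁.tendsto_atTop).eventually (ε.open_source.mem_nhds hyε)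
  have hwy : ∀ y' ∈ ε.source, w' (ε y') = v y' e ξ₀ := fun y' hy' => by
    simp only [hw']; rw [ε.left_inv hy']
  have hw0 : ∀ z ∈ ε.target, w' z ≠ 0 := fun z hz => hsub (ε.map_target hz)
  obtain ⟨ρ₀, hρ₀, hdom⟩ := C.dom_seq (w := w') (z₀ := ε y₀)
    (v_an hH hε ξ₀ _ (ε.map_source hyε)).continuousAt (hw0 _ (ε.map_source hyε)) hzt hlim
    (V := fun i => U (g (σ₁ i))⁻¹) (by
      filter_upwards [hsrc] with i hi
      obtain ⟨β, -, hβ, h1⟩ := hsh (σ₁ i)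
      obtain ⟨a, ha⟩ := h1.self_of_nhds.1 e (by rw [hpsm]; exact hε.at hi) ξ₀
      refine ⟨a, ?_⟩
      rw [hwy _ hi, ← hU _ _ e (hε.at hi), ha, hβ]
      rfl)
  obtain ⟨ρ₁, hρ₁, hball⟩ := Metric.isOpen_iff.1 ε.open_target _ (ε.map_source hyε)
  set ρ : ℝ := min ρ₀ ρ₁ with hρ
  have hρpos : 0 < ρ := lt_min hρ₀ hρ₁
  have hbt : ball (ε y₀) ρ ⊆ ε.target := (ball_subset_ball (min_le_right _ _)).trans hball
  have hev : ∀ᶠ i in atTop, ∀ z ∈ ball (ε y₀) ρ, Rel C t₀ T (U (g (σ₁ i))⁻¹) (w' z)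
      (F (ε.symm z) + c (g (σ₁ i))⁻¹) := by
    filter_upwards [hsrc, hdom, hzt.eventually (ball_mem_nhds _ hρpos),
      hlim.eventually (ball_mem_nhds _ C.r₁_pos)] with i hi1 hi2 hi3 hi4 z hz
    have hD : ∀ z ∈ ball (ε y₀) ρ, C.Dom (U (g (σ₁ i))⁻¹ (w' z)) := fun z hz =>
      hi2 z (ball_subset_ball (min_le_left _ _) hz)
    refine ⟨hD z hz, ?_⟩
    refine C.on_ball (convex_ball _ _).isPreconnected (B := ball (ε y₀) ρ)
      (fun z hz => v_an hH hε ξ₀ z (hbt hz)) hD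
      (fun b hb => (hγ₀ b (hsub3 b (ball_subset_ball hC hb))).2.1)
      (f := fun z => F (ε.symm z) + c (g (σ₁ i))⁻¹)
      (fun z hz => (IsCh.analytic hε hF z (hbt hz)).add analyticAt_const) hi3 ?_ hz
    obtain ⟨β, hβc, hβ, h1⟩ := hsh (σ₁ i)
    have ht : Tendsto (fun z => (g (σ₁ i))⁻¹ • ε.symm z) (𝓝 (ε (y (σ₁ i))))
        (𝓝 ((g (σ₁ i))⁻¹ • y (σ₁ i))) :=
      ((hp.cont _).continuousAt.tendsto).comp (IsCh.symm_tendsto hi1)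
    have hβb : ∀ᶠ y' in 𝓝 ((g (σ₁ i))⁻¹ • y (σ₁ i)), β y' ∈ ball b' C.r₁ := by
      refine hβc.eventually (isOpen_ball.mem_nhds ?_)
      rw [hβ]; exact hi4
    filter_upwards [ht.eventually (h1.and hβb), ε.open_target.mem_nhds (ε.map_source hi1)]
      with z' hz' hzt'
    obtain ⟨⟨h2, h3⟩, h4⟩ := hz'
    refine ⟨_, h4, ?_, ?_⟩
    · obtain ⟨a, ha⟩ := h2 e (by rw [hpsm]; exact hε.at (ε.map_target hzt')) ξ₀
      rw [hU _ _ e (hε.at (ε.map_target hzt'))] at ha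
      refine ⟨a, ?_, ha⟩
      rintro rfl
      rw [zero_smul] at ha
      refine hw0 z' hzt' ((U (g (σ₁ i))⁻¹).injective ?_)
      rw [map_zero]
      exact ha
    · rw [← hc]; exact h3
  obtain ⟨N₀, hN₀⟩ := eventually_atTop.1 hev
  refine ⟨fun i => σ₁ (i + N₀), hσ₁.comp (fun i j hij => by simpa using hij), b', C, w', e, ε, ρ,
    hb', hC, hε, hyε, hρpos, hbt, fun z hz => ⟨v_an hH hε ξ₀ z (hbt hz), ?_⟩, fun i z hz => ?_⟩
  · exact onL_of_dense hp.cov hH h𝒢d hL (hε.at (ε.map_target (hbt hz))) (hw0 z (hbt hz))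
  · exact hN₀ (i + N₀) (Nat.le_add_left _ _) z hz

end Vale.Agent.P284.H212
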