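import Vale.Agent.P284.H212.LFd

/-!
# P284 (helper212), module C: the extraction: near-identity sheet maps at all good points
-/

open scoped Manifold Topology ContDiff InnerProductSpace
open Filter Set Metric

noncomputable section

namespace Vale.Agent.P284.H212

open Vale.Agent.P272.K Vale.Agent.P284.H894.W Vale.Agent.P284.H894.G Vale.Agent.P284.H10
  Vale.Agent.P284.H494 Vale.Agent.P284.H573 Vale.Agent.P284.H395

variable {n R m q s : ℕ} {X : Type} [TopologicalSpace X] [ChartedSpace (Cm n) X] {E : Type}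
  [TopologicalSpace E] {p : E → X} {H : Type} [NormedAddCommGroup H] [InnerProductSpace ℂ H]
  {v : E → Chart n X → (Fin R → Cm n) → H}

/-- **strong convergence** along a subsequence -/
theorem lf_cauchy [CompleteSpace H] [ConnectedSpace E] (hp : IsCoveringMap p)
    (hH : HForm n R m p H v) {γ₀ : Cm s → H} {t₀ : Cm s → Cm q} {T : Cm q →L[ℂ] Cm q} {b' : Cm s}
    (C : PC γ₀ b') {r₀ : ℝ} (hC : C.R ≤ r₀)
    (hγ₀ : ∀ b ∈ closedBall b' r₀, AnalyticAt ℂ γ₀ b ∧ γ₀ b ≠ 0) {w' : Cm n → H}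
    {ε : OpenPartialHomeomorph E (Cm n)} {ρ : ℝ} {y₀ : E} (hyε : y₀ ∈ ε.source) (hρ : 0 < ρ)
    (hw : ∀ z ∈ ball (ε y₀) ρ, AnalyticAt ℂ w' z ∧ OnL p v (ε.symm z) (w' z))
    {V : ℕ → H →ₗᵢ[ℂ] H} {f : ℕ → Cm n → Cm q}
    (hrel : ∀ i, ∀ z ∈ ball (ε y₀) ρ, Rel C t₀ T (V i) (w' z) (f i z)) :
    ∃ φ : ℕ → ℕ, StrictMono φ ∧ ∀ y (e : Chart n X), At e (p y) → ∀ ξ,
      CauchySeq fun k => V (φ k) (v y e ξ) := by
  obtain ⟨φ, hφ, A, hA, -⟩ := H885.strong_limit (B := ball (ε y₀) ρ) (v := fun z => w' z.1)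
    (continuous_iff_continuousAt.2 fun z =>
      (hw z.1 z.2).1.continuousAt.comp continuous_subtype_val.continuousAt)
    (isCompact_closedBall b' r₀) (u := γ₀)
    (fun b hb => (hγ₀ b hb).1.continuousAt.continuousWithinAt) (fun b hb => (hγ₀ b hb).2) V
    (fun i z => by
      obtain ⟨h1, ⟨a, -, h2⟩, -⟩ := hrel i z.1 z.2
      exact ⟨a, _, ball_subset_closedBall (ball_subset_ball hC (C.g_mem _ h1.2)), h2⟩)
  refine ⟨φ, hφ, fun y e he ξ => ?_⟩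
  have hmem := v_mem_span hp hH (y₀ := y₀)
    (S := Submodule.span ℂ (range fun z : ball (ε y₀) ρ => w' z.1)) (by
      have h1 : ∀ᶠ y in 𝓝 y₀, ε y ∈ ball (ε y₀) ρ :=
        (ε.continuousAt hyε).eventually (ball_mem_nhds _ hρ)
      filter_upwards [h1, ε.open_source.mem_nhds hyε] with y' h2 h3
      refine ⟨w' (ε y'), Submodule.subset_span ⟨⟨ε y', h2⟩, rfl⟩, ?_⟩
      have h4 := (hw _ h2).2
      rwa [ε.left_inv h3] at h4) y he ξ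
  exact (hA ⟨_, hmem⟩).cauchySeq

variable {Γ : Type} [Group Γ] [MulAction Γ E] {w : Chart n X → Cm n → Matrix (Fin n) (Fin n) ℂ}
  {B : ℝ} {F : E → Cm q} {c : Γ → Cm q} {U : Γ → H →ₗᵢ[ℂ] H}

omit [TopologicalSpace E] in
lemma c_add [Nonempty E] (hc : ∀ g y, F (g • y) = F y + c g) (g h : Γ) : c (g * h) = c g + c h := by
  obtain ⟨y⟩ := ‹Nonempty E›
  have h1 := hc (g * h) y
  rw [mul_smul, hc, hc] at h1
  have h2 : c h + c g = c (g * h) := by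
    rw [add_assoc] at h1
    exact add_left_cancel h1
  rw [← h2, add_comm]

omit [TopologicalSpace E] in
lemma c_one [Nonempty E] (hc : ∀ g y, F (g • y) = F y + c g) : c 1 = 0 := by
  obtain ⟨y⟩ := ‹Nonempty E›
  have h1 := hc 1 y
  rw [one_smul] at h1
  exact (left_eq_add.1 h1)

omit [TopologicalSpace E] in
lemma c_inv [Nonempty E] (hc : ∀ g y, F (g • y) = F y + c g) (g : Γ) : c g⁻¹ = - c g := by
  have h1 := c_add hc g⁻¹ g
  rw [inv_mul_cancel, c_one hc] at h1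
  exact eq_neg_of_add_eq_zero_left h1.symm

omit [TopologicalSpace E] in
/-- on multiples of values, `U` is multiplicative -/
lemma U_mul (hU : ∀ g y (e : Chart n X), At e (p y) → ∀ ξ, v (g • y) e ξ = U g (v y e ξ))
    (hpsm : ∀ (g : Γ) (y : E), p (g • y) = p y) (g h : Γ) {y : E} {x : H} (hz : NZ p v y)
    (hx : OnL p v y x) : U (g * h) x = U g (U h x) := by
  obtain ⟨e, ξ, a, he, -, rfl⟩ := hx.exists_val hz
  simp only [map_smul]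
  rw [← hU _ _ e he, ← hU _ _ e he, ← hU _ _ e (by rw [hpsm]; exact he), mul_smul]

omit [TopologicalSpace E] in
lemma U_one (hU : ∀ g y (e : Chart n X), At e (p y) → ∀ ξ, v (g • y) e ξ = U g (v y e ξ))
    {y : E} {x : H} (hz : NZ p v y) (hx : OnL p v y x) : U 1 x = x := by
  obtain ⟨e, ξ, a, he, -, rfl⟩ := hx.exists_val hz
  simp only [map_smul]
  rw [← hU _ _ e he, one_smul]

/-- **the extraction** -/
theorem lf_seq [CompleteSpace H] [ConnectedSpace E] (hp : IsGalois Γ p) (hH : HForm n R m p H v)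
    (hU : ∀ g y (e : Chart n X), At e (p y) → ∀ ξ, v (g • y) e ξ = U g (v y e ξ))
    (hF : HolB p w F B) (hc : ∀ g y, F (g • y) = F y + c g) {T : Cm q →L[ℂ] Cm q} {𝒢 : Set E}
    (h𝒢d : Dense 𝒢) (h𝒢p : IsPreconnected 𝒢)
    (hch : ∀ z ∈ 𝒢, ∃ (β : E → Cm s) (γ : Cm s → H) (τ : Cm s → Cm q), LCh p v F T z β γ τ)
    {γ₀ : Cm s → H} {t₀ : Cm s → Cm q} {b₀ : Cm s} {r₀ : ℝ} (hr₀ : 0 < r₀)
    (hγ₀ : ∀ b ∈ ball b₀ (3 * r₀), AnalyticAt ℂ γ₀ b ∧ AnalyticAt ℂ t₀ b ∧ ImmAt γ₀ b)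
    (g : ℕ → Γ) {y : ℕ → E} {y₀ : E} (hy : Tendsto y atTop (𝓝 y₀)) (hNZ : NZ p v y₀)
    {b : ℕ → Cm s} (hb : ∀ i, b i ∈ ball b₀ r₀)
    (hsh : ∀ i, ShT p v F γ₀ t₀ T ((g i)⁻¹ • y i) (b i)) :
    ∃ σ : ℕ → ℕ, StrictMono σ ∧
      (∀ y (e : Chart n X), At e (p y) → ∀ ξ, Tendsto (fun ij : ℕ × ℕ =>
        U (g (σ ij.1) * (g (σ ij.2))⁻¹) (v y e ξ)) atTop (𝓝 (v y e ξ))) ∧
      ∀ z ∈ 𝒢, ∀ (β : E → Cm s) (γ : Cm s → H) (τ : Cm s → Cm q), LCh p v F T z β γ τ →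
        NI γ τ T atTop (fun ij : ℕ × ℕ => U (g (σ ij.1) * (g (σ ij.2))⁻¹))
          (fun ij => c (g (σ ij.1) * (g (σ ij.2))⁻¹)) (β z) := by
  have hne : Nonempty E := ⟨y₀⟩
  have hpsm : ∀ (g : Γ) (y : E), p (g • y) = p y := fun g y =>
    ((hp.orb y (g • y)).2 ⟨g, rfl⟩).symm
  obtain ⟨σ₁, hσ₁, b', C, w', e, ε, ρ, hb', hC, hε, hyε, hρ, hbt, hw, hrel⟩ :=
    lf_ball hp hH hU hF hc h𝒢d (fun z hz => by
      obtain ⟨β, γ, τ, h⟩ := hch z hz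
      exact ⟨_, h.ev.self_of_nhds.2.2.2.1⟩) hr₀ hγ₀ g hy hNZ hb hsh
  have hcl : ∀ b ∈ closedBall b' r₀, b ∈ ball b₀ (3 * r₀) := by
    intro b hb
    rw [mem_closedBall] at hb hb'
    rw [mem_ball]
    calc dist b b₀ ≤ dist b b' + dist b' b₀ := dist_triangle _ _ _
      _ < 3 * r₀ := by linarith
  obtain ⟨φ, hφ, hcau⟩ := lf_cauchy hp.cov hH C hC
    (fun b hb => ⟨(hγ₀ b (hcl b hb)).1, (hγ₀ b (hcl b hb)).2.2.1⟩) hyε hρ hw hrel
  -- a good point near `y₀`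
  have hnb : ε.source ∩ ε ⁻¹' ball (ε y₀) ρ ∈ 𝓝 y₀ :=
    inter_mem (ε.open_source.mem_nhds hyε)
      ((ε.continuousAt hyε).preimage_mem_nhds (ball_mem_nhds _ hρ))
  obtain ⟨y₁, ⟨hy₁s, hy₁b⟩, hy₁⟩ := mem_closure_iff_nhds.1 (h𝒢d y₀) _ hnb
  obtain ⟨β, γ', τ, hch1⟩ := hch y₁ hy₁
  obtain ⟨C', r, hr, hrC, hτ, hval⟩ := hch1.setup
  have hO : ∀ᶠ y in 𝓝 y₁, (y ∈ ε.source ∧ ε y ∈ ball (ε y₀) ρ) ∧ (ContinuousAt β y ∧
      𝓝 (β y) ≤ map β (𝓝 y) ∧ NZ p v y ∧ OnL p v y (γ' (β y)) ∧ T (F y - τ (β y)) = 0) := by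
    refine Filter.Eventually.and ?_ hch1.ev
    exact inter_mem (ε.open_source.mem_nhds hy₁s)
      ((ε.continuousAt hy₁s).preimage_mem_nhds (isOpen_ball.mem_nhds hy₁b))
  obtain ⟨ρ', hρ', hρ'b⟩ := Metric.mem_nhds_iff.1 (hch1.ev.self_of_nhds.2.1 (image_mem_map hO))
  set r' : ℝ := min r ρ' with hr'
  have hr'pos : 0 < r' := lt_min hr hρ'
  have hbv : ∀ b ∈ ball (β y₁) r', ∃ y, NZ p v y ∧ OnL p v y (γ' b) := fun b hb =>
    hval b (ball_subset_closedBall (ball_subset_ball (min_le_left _ _) hb))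
  have hrel' : ∀ i, ∀ b ∈ ball (β y₁) r', Rel C t₀ T (U (g (σ₁ i))⁻¹) (γ' b)
      (τ b + c (g (σ₁ i))⁻¹) := by
    intro i b hb
    obtain ⟨y', hy', rfl⟩ := hρ'b (ball_subset_ball (min_le_right _ _) hb)
    obtain ⟨⟨h1, h2⟩, -, -, h3, h4, h5⟩ := hy'
    have h6 := (hw _ h2).2
    rw [ε.left_inv h1] at h6
    obtain ⟨a, ha, h7⟩ := OnL.prop h3 h6 h4
    have h8 := (hrel i _ h2).smul ha
    rw [← h7, ε.left_inv h1] at h8
    refine ⟨h8.1, h8.2.1, ?_⟩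
    have h9 := h8.2.2
    set t' := t₀ (C.g (C.P (U (g (σ₁ i))⁻¹ (γ' (β y'))))) with ht'
    have h10 : τ (β y') + c (g (σ₁ i))⁻¹ - t' =
        (F y' + c (g (σ₁ i))⁻¹ - t') - (F y' - τ (β y')) := by abel
    rw [h10, map_sub, h9, h5, sub_zero]
  -- the last subsequence
  obtain ⟨b'', hb'', φ₂, hφ₂, hlim⟩ := (isCompact_closedBall b' r₀).tendsto_subseq
    (x := fun k => C.g (C.P (U (g (σ₁ (φ k)))⁻¹ (γ' (β y₁)))))
    (fun k => ball_subset_closedBall (ball_subset_ball hC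
      (C.g_mem _ (hrel' (φ k) _ (mem_ball_self hr'pos)).1.2)))
  set σ : ℕ → ℕ := fun k => σ₁ (φ (φ₂ k)) with hσ
  have hσm : StrictMono σ := hσ₁.comp (hφ.comp hφ₂)
  have hstrong : ∀ y (e : Chart n X), At e (p y) → ∀ ξ, Tendsto (fun ij : ℕ × ℕ =>
      U (g (σ ij.1) * (g (σ ij.2))⁻¹) (v y e ξ)) atTop (𝓝 (v y e ξ)) := by
    intro y e he ξ
    have h1 : CauchySeq fun k => U (g (σ k))⁻¹ (v y e ξ) :=
      (hcau y e he ξ).comp_tendsto hφ₂.tendsto_atTop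
    have h2 := cauchySeq_iff_tendsto_dist_atTop_0.1 h1
    rw [tendsto_iff_norm_sub_tendsto_zero]
    refine h2.congr fun ij => ?_
    have h3 : U (g (σ ij.1) * (g (σ ij.2))⁻¹) (v y e ξ) =
        U (g (σ ij.1)) (U (g (σ ij.2))⁻¹ (v y e ξ)) := by
      rw [← hU _ _ e he, ← hU _ _ e he, ← hU _ _ e (by rw [hpsm]; exact he), mul_smul]
    have h4 : v y e ξ = U (g (σ ij.1)) (U (g (σ ij.1))⁻¹ (v y e ξ)) := by
      rw [← hU _ _ e he, ← hU _ _ e (by rw [hpsm]; exact he), smul_inv_smul]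
    rw [h3]
    conv_rhs => rw [h4]
    rw [← map_sub, LinearIsometry.norm_map, dist_comm, dist_eq_norm, ← h4]
  refine ⟨σ, hσm, hstrong, fun z hz β₂ γ₂ τ₂ h₂ => ?_⟩
  refine ni_prop hstrong h𝒢p hch hy₁ ⟨β, γ', τ, hch1, ?_⟩ hz h₂
  have hcij : (fun ij : ℕ × ℕ => c (g (σ ij.1) * (g (σ ij.2))⁻¹)) =
      fun ij : ℕ × ℕ => c (g (σ ij.2))⁻¹ - c (g (σ ij.1))⁻¹ := by
    funext ij
    rw [c_add hc, c_inv hc (g (σ ij.1))]
    abel
  have hb3 := hγ₀ b'' (hcl b'' hb'')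
  have hwni : WNI C' τ T atTop (fun ij : ℕ × ℕ => U (g (σ ij.1) * (g (σ ij.2))⁻¹))
      (fun ij => c (g (σ ij.1) * (g (σ ij.2))⁻¹)) (β y₁) := by
    rw [hcij]
    refine wni_of_seq C C' (t := t₀) hr'pos (V := fun k => U (g (σ k))⁻¹)
      (V' := fun k => U (g (σ k))) (d := fun k => c (g (σ k))⁻¹)
      (fun i b hb => hrel' (φ (φ₂ i)) b hb) (fun i b hb => ?_) (fun i j b hb => ?_) ?_ hlim hb3.1
      hb3.2.2.1
    · obtain ⟨y', h1, h2⟩ := hbv b hb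
      rw [← U_mul hU hpsm _ _ h1 h2, mul_inv_cancel, U_one hU h1 h2]
    · obtain ⟨y', h1, h2⟩ := hbv b hb
      exact U_mul hU hpsm _ _ h1 h2
    · obtain ⟨y', h1, h2⟩ := hbv _ (mem_ball_self hr'pos)
      exact strong_of hstrong h1 h2
  refine ni_of_weak C' hτ hrC (fun b hb => ?_) (mem_ball_self hr) hwni (mem_ball_self hr)
  obtain ⟨y', h1, h2⟩ := hval b hb
  exact strong_of hstrong h1 h2

end Vale.Agent.P284.H212
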