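import Vale.Agent.P284.H212.Cont

/-!
# P284 (helper212), module C: near-identity sheet maps, local theory

`U n` isometries converging strongly to `1`; the relation `U n (γ b) ∈ ℂ γ (φ n b)`,
`T (τ (φ n b) - τ b - c n) = 0`, `φ n → id`, holds on a ball of fixed radius as soon as it holds near
one point.
-/

open scoped Topology ContDiff
open Filter Set Metric

noncomputable section

namespace Vale.Agent.P284.H212

open Vale.Agent.P272.K Vale.Agent.P284.H573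

variable {s q : ℕ} {H : Type} [NormedAddCommGroup H] [InnerProductSpace ℂ H]

section
variable {ι : Type} {l : Filter ι} {U : ι → H →ₗᵢ[ℂ] H}

/-- strong convergence is uniform on compact sets -/
lemma unif_of_strong {K : Set H} (hK : IsCompact K) (h : ∀ x ∈ K, Tendsto (fun n => U n x) l (𝓝 x))
    {ε : ℝ} (hε : 0 < ε) : ∀ᶠ n in l, ∀ x ∈ K, ‖U n x - x‖ < ε := by
  refine hK.induction_on (p := fun K => ∀ᶠ n in l, ∀ x ∈ K, ‖U n x - x‖ < ε) ?_ ?_ ?_ ?_
  · exact Eventually.of_forall fun n x hx => hx.elim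
  · intro s t hst ht
    exact ht.mono fun n hn x hx => hn x (hst hx)
  · intro s t hs ht
    filter_upwards [hs, ht] with n h1 h2 x hx
    exact hx.elim (h1 x) (h2 x)
  · intro x hx
    refine ⟨ball x (ε / 4), mem_nhdsWithin_of_mem_nhds (ball_mem_nhds x (by positivity)), ?_⟩
    have h1 := (tendsto_iff_norm_sub_tendsto_zero.1 (h x hx)).eventually
      (gt_mem_nhds (show 0 < ε / 4 by positivity))
    filter_upwards [h1] with n hn y hy
    rw [mem_ball, dist_eq_norm] at hy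
    calc ‖U n y - y‖ = ‖U n (y - x) + (U n x - x) - (y - x)‖ := by rw [map_sub]; congr 1; abel
      _ ≤ ‖U n (y - x) + (U n x - x)‖ + ‖y - x‖ := norm_sub_le _ _
      _ ≤ ‖U n (y - x)‖ + ‖U n x - x‖ + ‖y - x‖ := by gcongr; exact norm_add_le _ _
      _ = ‖y - x‖ + ‖U n x - x‖ + ‖y - x‖ := by rw [LinearIsometry.norm_map]
      _ < ε := by linarith

omit [InnerProductSpace ℂ H] in
/-- a function which is continuous near a compact set is close on nearby points -/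
lemma unif_comp {K : Set H} (hK : IsCompact K) {V : Type*} [NormedAddCommGroup V] {f : H → V}
    (hf : ∀ x ∈ K, ContinuousAt f x) {ε : ℝ} (hε : 0 < ε) :
    ∃ δ > 0, ∀ x ∈ K, ∀ y, ‖y - x‖ < δ → ‖f y - f x‖ < ε := by
  have h1 := hK.uniformContinuousAt_of_continuousAt f hf (Metric.dist_mem_uniformity hε)
  obtain ⟨δ, hδ, h2⟩ := Metric.mem_uniformity_dist.1 h1
  refine ⟨δ, hδ, fun x hx y hy => ?_⟩
  have h3 : dist x y < δ := by rwa [dist_comm, dist_eq_norm]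
  have h4 := h2 h3 hx
  simp only [mem_ofPred_eq] at h4
  rwa [dist_comm, dist_eq_norm] at h4

end

section
variable {γ : Cm s → H} {b₀ : Cm s} {ι : Type} {l : Filter ι} {U : ι → H →ₗᵢ[ℂ] H}

/-- the immersion property holds on the small ball -/
lemma PC.immAt (C : PC γ b₀) {b : Cm s} (hb : b ∈ ball b₀ C.r₁) : ImmAt γ b := by
  have h0 := C.l₀_ne b hb
  have hγ : AnalyticAt ℂ γ b := C.γan b (ball_subset_ball C.r₁_le hb)
  refine ⟨fun h => h0 (by rw [h, map_zero]), fun η c hη => ?_⟩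
  have hD : C.Dom (γ b) := C.dom_γ hb
  have h1 : (fun b => C.g (C.P (γ b))) =ᶠ[𝓝 b] fun b => b := by
    filter_upwards [isOpen_ball.mem_nhds hb] with b' hb' using C.gP b' hb'
  have h2 : fderiv ℂ (fun b => C.g (C.P (γ b))) b η = η := by
    rw [h1.fderiv_eq]; simp
  have d1 : HasFDerivAt γ (fderiv ℂ γ b) b := hγ.differentiableAt.hasFDerivAt
  have d2 : HasFDerivAt C.P (fderiv ℂ C.P (γ b)) (γ b) :=
    (((C.l₀.analyticAt (γ b)).inv hD.1).smul (C.l.analyticAt (γ b))).differentiableAt.hasFDerivAt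
  have d3 : HasFDerivAt C.g (fderiv ℂ C.g (C.P (γ b))) (C.P (γ b)) :=
    (C.gan _ hD.2).differentiableAt.hasFDerivAt
  have d4 : HasFDerivAt (fun b => C.g (C.P (γ b)))
      (fderiv ℂ C.g (C.P (γ b)) ∘L (fderiv ℂ C.P (γ b) ∘L fderiv ℂ γ b)) b :=
    d3.comp b (d2.comp b d1)
  rw [d4.fderiv] at h2
  -- `P` is homogeneous, so its derivative kills `γ b`
  have h3 : fderiv ℂ C.P (γ b) (γ b) = 0 := by
    have e1 : HasFDerivAt (fun a : ℂ => C.P (a • γ b)) (fderiv ℂ C.P (γ b) ∘L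
        ((ContinuousLinearMap.id ℂ ℂ).smulRight (γ b))) 1 := by
      have e2 : HasFDerivAt (fun a : ℂ => a • γ b)
          ((ContinuousLinearMap.id ℂ ℂ).smulRight (γ b)) 1 :=
        (hasFDerivAt_id (1 : ℂ)).smul_const (γ b)
      have e3 : HasFDerivAt C.P (fderiv ℂ C.P (γ b)) ((1 : ℂ) • γ b) := by
        rw [one_smul]; exact d2
      exact e3.comp 1 e2
    have e4 : (fun a : ℂ => C.P (a • γ b)) =ᶠ[𝓝 1] fun _ => C.P (γ b) := by
      filter_upwards [isOpen_ne.mem_nhds (one_ne_zero : (1 : ℂ) ≠ 0)] with a ha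
      exact C.P_smul ha _
    have e5 := e4.fderiv_eq (𝕜 := ℂ)
    rw [e1.fderiv] at e5
    have e6 := congrArg (fun L : ℂ →L[ℂ] Cm s => L 1) e5
    simpa using e6
  rw [ContinuousLinearMap.comp_apply, ContinuousLinearMap.comp_apply, hη, map_smul, h3,
    smul_zero, map_zero] at h2
  exact h2.symm

/-- the near-identity map -/
def PC.phi (C : PC γ b₀) (V : H →ₗᵢ[ℂ] H) (b : Cm s) : Cm s := C.g (C.P (V (γ b)))

lemma PC.isCompact_img (C : PC γ b₀) {r : ℝ} (hr : r < C.r₁) :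
    IsCompact (γ '' closedBall b₀ r) := by
  refine (isCompact_closedBall b₀ r).image_of_continuousOn fun b hb => ?_
  exact (C.γan b (closedBall_subset_ball (hr.trans_le C.r₁_le) hb)).continuousAt.continuousWithinAt

lemma PC.dom_img (C : PC γ b₀) {r : ℝ} (hr : r < C.r₁) {x : H} (hx : x ∈ γ '' closedBall b₀ r) :
    C.Dom x := by
  obtain ⟨b, hb, rfl⟩ := hx
  exact C.dom_γ (closedBall_subset_ball hr hb)

/-- for large `n` the points `U n (γ b)` lie in the domain of the chart, and `phi → id` -/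
theorem PC.phi_tendsto (C : PC γ b₀) {r : ℝ} (hr : r < C.r₁)
    (hU : ∀ b ∈ closedBall b₀ r, Tendsto (fun n => U n (γ b)) l (𝓝 (γ b))) :
    (∀ᶠ n in l, ∀ b ∈ closedBall b₀ r, C.Dom (U n (γ b))) ∧
      ∀ ε > 0, ∀ᶠ n in l, ∀ b ∈ closedBall b₀ r, ‖C.phi (U n) b - b‖ < ε := by
  set K := γ '' closedBall b₀ r with hKdef
  have hK : IsCompact K := C.isCompact_img hr
  have hUK : ∀ x ∈ K, Tendsto (fun n => U n x) l (𝓝 x) := by
    rintro _ ⟨b, hb, rfl⟩; exact hU b hb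
  constructor
  · obtain ⟨δ, hδ, h1⟩ := hK.exists_thickening_subset_open C.dom_open
      (fun x hx => C.dom_img hr hx)
    filter_upwards [unif_of_strong hK hUK hδ] with n hn b hb
    refine h1 (mem_thickening_iff.2 ⟨γ b, mem_image_of_mem _ hb, ?_⟩)
    rw [dist_eq_norm]
    exact hn _ (mem_image_of_mem _ hb)
  · intro ε hε
    obtain ⟨δ, hδ, h1⟩ := unif_comp hK (f := fun x => C.g (C.P x))
      (fun x hx => (C.gP_an (C.dom_img hr hx)).continuousAt) hε
    filter_upwards [unif_of_strong hK hUK hδ] with n hn b hb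
    have h2 := h1 (γ b) (mem_image_of_mem _ hb) (U n (γ b)) (hn _ (mem_image_of_mem _ hb))
    have h3 : C.g (C.P (γ b)) = b := C.gP b (closedBall_subset_ball hr hb)
    rw [h3] at h2
    exact h2

lemma PC.phi_an (C : PC γ b₀) {V : H →ₗᵢ[ℂ] H} {b : Cm s} (hb : b ∈ ball b₀ C.R)
    (hD : C.Dom (V (γ b))) : AnalyticAt ℂ (C.phi V) b := by
  have h1 : AnalyticAt ℂ (fun b => V (γ b)) b :=
    (V.toContinuousLinearMap.analyticAt _).comp (C.γan b hb)
  exact AnalyticAt.comp (g := fun x => C.g (C.P x)) (C.gP_an hD) h1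

variable {τ : Cm s → Cm q} {T : Cm q →L[ℂ] Cm q} {c : Cm q}

/-- the sheet relation near one point implies the relation on the ball -/
theorem PC.rel_of_weak [CompleteSpace H] (C : PC γ b₀) (hτ : ∀ b ∈ ball b₀ C.R, AnalyticAt ℂ τ b)
    {V : H →ₗᵢ[ℂ] H} {r : ℝ} (hr : r < C.r₁) (hD : ∀ b ∈ closedBall b₀ r, C.Dom (V (γ b)))
    {b₁ : Cm s} (hb₁ : b₁ ∈ ball b₀ r)
    (hw : ∀ᶠ b in 𝓝 b₁, ∃ b'' ∈ ball b₀ C.r₁, (∃ a : ℂ, a ≠ 0 ∧ V (γ b) = a • γ b'') ∧
      T (τ b'' - τ b - c) = 0) {b : Cm s} (hb : b ∈ ball b₀ r) :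
    (∃ a : ℂ, a ≠ 0 ∧ V (γ b) = a • γ (C.phi V b)) ∧ T (τ (C.phi V b) - τ b - c) = 0 := by
  have hsub : ball b₀ r ⊆ ball b₀ C.R := ball_subset_ball (hr.le.trans C.r₁_le)
  have hD' : ∀ b ∈ ball b₀ r, C.Dom (V (γ b)) := fun b hb => hD b (ball_subset_closedBall hb)
  have hwan : ∀ b ∈ ball b₀ r, AnalyticAt ℂ (fun b => V (γ b)) b := fun b hb =>
    (V.toContinuousLinearMap.analyticAt _).comp (C.γan b (hsub hb))
  have hphi : ∀ᶠ b in 𝓝 b₁, C.On (V (γ b)) ∧ T (τ (C.phi V b) - τ b - c) = 0 := by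
    filter_upwards [hw] with b hb
    obtain ⟨b'', hb'', ⟨a, ha, h1⟩, h2⟩ := hb
    obtain ⟨-, h3, h4⟩ := C.g_of hb'' ha h1
    have h5 : C.phi V b = b'' := h3
    refine ⟨?_, by rw [h5]; exact h2⟩
    unfold PC.On
    rw [h4, h3]
    exact h1
  constructor
  · refine ⟨C.a (V (γ b)), C.a_ne (hD' b hb), ?_⟩
    exact C.cont (convex_ball b₀ r).isPreconnected (w := fun b => V (γ b)) hwan hD' hb₁
      (hphi.mono fun b hb => hb.1) hb
  · have h1 : AnalyticOnNhd ℂ (fun b => T (τ (C.phi V b) - τ b - c)) (ball b₀ r) := by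
      intro b hb
      refine (T.analyticAt _).comp ?_
      refine ((AnalyticAt.comp (g := τ) (f := C.phi V) (hτ _ (C.g_mem _ (hD' b hb).2))
        (C.phi_an (hsub hb) (hD' b hb))).sub (hτ b (hsub hb))).sub analyticAt_const
    exact h1.eqOn_zero_of_preconnected_of_eventuallyEq_zero
      (convex_ball b₀ r).isPreconnected hb₁
      (hphi.mono fun b hb => hb.2) hb

end

/-- **near-identity sheet maps** at the point `b₁` of the leaf space -/
def NI (γ : Cm s → H) (τ : Cm s → Cm q) (T : Cm q →L[ℂ] Cm q) {ι : Type} (l : Filter ι)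
    (U : ι → H →ₗᵢ[ℂ] H) (c : ι → Cm q) (b₁ : Cm s) : Prop :=
  ∃ r > 0, ∃ φ : ι → Cm s → Cm s, (∀ᶠ n in l, ∀ b ∈ ball b₁ r, AnalyticAt ℂ (φ n) b ∧
    (∃ a : ℂ, a ≠ 0 ∧ U n (γ b) = a • γ (φ n b)) ∧ T (τ (φ n b) - τ b - c n) = 0) ∧
    ∀ ε > 0, ∀ᶠ n in l, ∀ b ∈ ball b₁ r, ‖φ n b - b‖ < ε

section
variable {γ : Cm s → H} {b₀ : Cm s} {τ : Cm s → Cm q} {T : Cm q →L[ℂ] Cm q} {ι : Type}
  {l : Filter ι} {U : ι → H →ₗᵢ[ℂ] H} {c : ι → Cm q}

/-- weak form: near one point, for each large `n` separately, and without smallness -/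
def WNI (C : PC γ b₀) (τ : Cm s → Cm q) (T : Cm q →L[ℂ] Cm q) {ι : Type} (l : Filter ι)
    (U : ι → H →ₗᵢ[ℂ] H) (c : ι → Cm q) (b₁ : Cm s) : Prop :=
  ∀ᶠ n in l, ∀ᶠ b in 𝓝 b₁, ∃ b'' ∈ ball b₀ C.r₁, (∃ a : ℂ, a ≠ 0 ∧ U n (γ b) = a • γ b'') ∧
    T (τ b'' - τ b - c n) = 0

/-- weak relation at one point of the ball implies near-identity maps at all points of the ball -/
theorem ni_of_weak [CompleteSpace H] (C : PC γ b₀) (hτ : ∀ b ∈ ball b₀ C.R, AnalyticAt ℂ τ b)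
    {r : ℝ} (hr : r < C.r₁) (hU : ∀ b ∈ closedBall b₀ r, Tendsto (fun n => U n (γ b)) l (𝓝 (γ b)))
    {b₁ : Cm s} (hb₁ : b₁ ∈ ball b₀ r) (hw : WNI C τ T l U c b₁) {b : Cm s}
    (hb : b ∈ ball b₀ r) : NI γ τ T l U c b := by
  obtain ⟨h1, h2⟩ := C.phi_tendsto hr hU
  obtain ⟨ρ, hρ, hρb⟩ := Metric.isOpen_iff.1 isOpen_ball b hb
  refine ⟨ρ, hρ, fun n => C.phi (U n), ?_, fun ε hε => ?_⟩
  · filter_upwards [h1, hw] with n hn hwn b' hb'
    have hb'' : b' ∈ ball b₀ r := hρb hb'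
    refine ⟨C.phi_an (ball_subset_ball (hr.le.trans C.r₁_le) hb'')
      (hn _ (ball_subset_closedBall hb'')), ?_⟩
    exact C.rel_of_weak hτ hr hn hb₁ hwn hb''
  · filter_upwards [h2 ε hε] with n hn b' hb'
    exact hn b' (ball_subset_closedBall (hρb hb'))

end

end Vale.Agent.P284.H212
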